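import Vale.Agent.P297.H54.T8Hom
import Vale.Agent.P297.H637.T8Poly

/-!
The other side for a finite set of quartics with the same invariants that is permuted by the
automorphisms: the sum of the cycles is a relation.
-/

set_option linter.unusedSectionVars false

open IntermediateField Polynomial WeierstrassCurve WeierstrassCurve.Affine

namespace Vale.Agent.P297.H54

open Vale.Agent.P297 Vale.Agent.P297.Gen Vale.Agent.P297.H839 Vale.Agent.P297.H600
open Vale.Agent.P297.H729 Vale.Agent.P297.Z3 Vale.Agent.P297.G4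

section

variable {A N ι : Type} [AddCommGroup A] [Field N] [Algebra ℂ N]

/-- The sum over every finite family of generic points `(κ, X, Y)` that is permuted by the
automorphisms over a purely transcendental field is a relation. -/
def Star3 [IsAlgClosed N] (kap : ι → N) (c : ι → Fin 5 → N) (l : N) (B : N → N → N → A)
    (𝓡 : AddSubgroup A) : Prop :=
  ∀ (L : IntermediateField ℂ N), IsRational L → Algebra.IsAlgebraic L N →
    ∀ (n : ℕ) (e X Y : Fin n → N),
      (∀ i, ∃ j, e i = kap j ∧ X i ∉ cl0 {l} ∧ Y i ^ 2 = qv (c j) (X i)) →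
      (∀ g : N ≃ₐ[ℂ] N, (∀ x ∈ L, g x = x) → ∃ σ : Equiv.Perm (Fin n),
        ∀ i, g (e i) = e (σ i) ∧ g (X i) = X (σ i) ∧ g (Y i) = Y (σ i)) →
      ∑ i, B (e i) (X i) (Y i) ∈ 𝓡

theorem Star3.fintype [IsAlgClosed N] {kap : ι → N} {c : ι → Fin 5 → N} {l : N}
    {B : N → N → N → A} {𝓡 : AddSubgroup A}
    (hB : Star3 kap c l B 𝓡) (L : IntermediateField ℂ N) (hL : IsRational L)
    (hLa : Algebra.IsAlgebraic L N) {ι' : Type} [Fintype ι'] (e X Y : ι' → N)
    (hgen : ∀ i, ∃ j, e i = kap j ∧ X i ∉ cl0 {l} ∧ Y i ^ 2 = qv (c j) (X i))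
    (hperm : ∀ g : N ≃ₐ[ℂ] N, (∀ x ∈ L, g x = x) → ∃ σ : Equiv.Perm ι',
      ∀ i, g (e i) = e (σ i) ∧ g (X i) = X (σ i) ∧ g (Y i) = Y (σ i)) :
    ∑ i, B (e i) (X i) (Y i) ∈ 𝓡 := by
  let E := Fintype.equivFin ι'
  have h := hB L hL hLa (Fintype.card ι') (e ∘ E.symm) (X ∘ E.symm) (Y ∘ E.symm)
    (fun i => hgen _) (fun g hg => ?_)
  · rw [← E.symm.sum_comp]
    exact h
  · obtain ⟨σ, hσ⟩ := hperm g hg
    refine ⟨(E.symm.trans σ).trans E, fun i => ?_⟩
    have h1 := hσ (E.symm i)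
    simp only [Function.comp_apply, Equiv.trans_apply, Equiv.symm_apply_apply]
    exact h1

end

section

variable {N : Type} [Field N]

/-- curves with the same coefficients -/
def pc {a b a' b' : N} [DecidableEq N] (ha : a' = a) (hb : b' = b) :
    (wc a b).toAffine.Point →+ (wc a' b').toAffine.Point := by
  subst ha hb
  exact AddMonoidHom.id _

variable [Algebra ℂ N] [DecidableEq N] {a b a' b' : N} (ha : a' = a) (hb : b' = b)

theorem pc_inF {M : IntermediateField ℂ N} {P : (wc a b).toAffine.Point} :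
    InF M (pc ha hb P) ↔ InF M P := by
  subst ha hb
  exact Iff.rfl

theorem pc_some {x y : N} (h : (wc a b).toAffine.Nonsingular x y) :
    ∃ h', pc ha hb (Point.some x y h) = Point.some x y h' := by
  subst ha hb
  exact ⟨h, rfl⟩

theorem pc_bij : Function.Bijective (pc ha hb) := by
  subst ha hb
  exact Function.bijective_id

end

section

variable {N : Type} [Field N] [Algebra ℂ N] [IsAlgClosed N] [CharZero N] [DecidableEq N]

theorem exists_lv (κ : N) : ∃ s : N, s ≠ 0 ∧ lv s = κ := by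
  obtain ⟨z, hz⟩ := IsAlgClosed.exists_pow_nat_eq (((2 - κ) / 2) ^ 2 - 1) (Nat.succ_pos 1)
  have h1 : (z - (2 - κ) / 2) ^ 2 + (2 - κ) * (z - (2 - κ) / 2) + 1 = 0 := by
    linear_combination hz
  have h0 : z - (2 - κ) / 2 ≠ 0 := by
    intro h0
    rw [h0] at h1
    norm_num at h1
  refine ⟨z - (2 - κ) / 2, h0, ?_⟩
  unfold lv
  rw [div_eq_iff h0]
  linear_combination h1

theorem cl0_lv {s : N} (hs : s ≠ 0) : cl0 {s} = cl0 ({lv s} : Set N) := by
  apply le_antisymm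
  · refine cl0_le (cl0_closed _) ?_
    rintro _ rfl
    exact J.s_mem_of_lv (closed_cl0 _) hs (subset_cl0 _ rfl)
  · refine cl0_le (cl0_closed _) ?_
    rintro _ rfl
    exact J.lv_mem (subset_cl0 _ rfl)

theorem tr_of_lv {s : N} (h : Transcendental ℂ (lv s)) : Transcendental ℂ s := by
  intro h0
  apply h
  unfold lv
  rw [div_eq_mul_inv]
  exact ((isAlgebraic_one.add h0).pow 2).mul h0.inv

/-- the action on a point of a quartic -/
theorem map_aXc {a b : N} {c c' : Fin 5 → N} (g : N ≃ₐ[ℂ] N) (hc : ∀ j, g (c j) = c' j)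
    (ha : -qI c / 3 = a) (hb : -qJ c / 27 = b) (ha' : -qI c' / 3 = a) (hb' : -qJ c' / 27 = b)
    (hg : (g : N →+* N) a = a ∧ (g : N →+* N) b = b) (e : N) (P : (wc a b).toAffine.Point) :
    g (aX c e (pc ha hb P)) = aX c' (g e) (pc ha' hb' (gfun (g : N →+* N) hg P)) ∧
      g (aY c e (pc ha hb P)) = aY c' (g e) (pc ha' hb' (gfun (g : N →+* N) hg P)) := by
  have hcc : (fun i => (J.rh g) (c i)) = c' := funext hc
  rcases P with (_ | ⟨x, y, h⟩)
  · have e0 : (Point.zero : (wc a b).toAffine.Point) = 0 := rfl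
    rw [e0, gfun_zero, map_zero, map_zero]
    exact ⟨rfl, map_zero g⟩
  · obtain ⟨h', e1⟩ := pc_some ha hb h
    obtain ⟨h'', e2⟩ := pc_some ha' hb' (gfun_aux (g : N →+* N) hg h)
    have e3 : gfun (g : N →+* N) hg (Point.some x y h) =
      Point.some (g x) (g y) (gfun_aux (g : N →+* N) hg h) := rfl
    have e4 : (g : N →+* N) x = g x := rfl
    have e5 : (g : N →+* N) y = g y := rfl
    have k1 := J.map_q1 (J.rh g) c e
    have k2 := J.map_q2 (J.rh g) c e
    rw [hcc] at k1 k2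
    change g (q1 c e) = q1 c' (g e) at k1
    change g (q2 c e) = q2 c' (g e) at k2
    rw [e3, e1]
    change g _ = aX c' (g e) (pc ha' hb' (Point.some ((g : N →+* N) x) ((g : N →+* N) y) _)) ∧
      g _ = aY c' (g e) (pc ha' hb' (Point.some ((g : N →+* N) x) ((g : N →+* N) y) _))
    rw [e2, aX_some, aX_some, aY_some, aY_some, map_add, map_div₀, map_sub, map_div₀, map_div₀,
      map_mul, map_pow, map_sub, map_div₀, k1, k2, map_ofNat]
    exact ⟨rfl, rfl⟩

/-- An automorphism that fixes the coordinates of a generic point of a quartic moves the point of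
the jacobian by a point of order two. -/
theorem fixpt {l a b : N} {d : Fin 5 → N} (ha : -qI d / 3 = a) (hb : -qJ d / 27 = b)
    (memd : ∀ i, d i ∈ cl0 {l}) (hdd : 4 * qI d ^ 3 ≠ qJ d ^ 2) {ε : N} (hε : qv d ε = 0)
    {P : (wc a b).toAffine.Point} (hP : ¬ InF (cl0 {l}) P) (g : N ≃ₐ[ℂ] N)
    (hgd : ∀ i, g (d i) = d i) (hg : (g : N →+* N) a = a ∧ (g : N →+* N) b = b)
    (hX : g (aX d ε (pc ha hb P)) = aX d ε (pc ha hb P))
    (hY : g (aY d ε (pc ha hb P)) = aY d ε (pc ha hb P)) :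
    ∃ T : (wc a b).toAffine.Point, (2 : ℕ) • T = 0 ∧ gfun (g : N →+* N) hg P = P + T := by
  subst ha hb
  change g (aX d ε P) = aX d ε P at hX
  change g (aY d ε P) = aY d ε P at hY
  have hκ := closed_cl0 ({l} : Set N)
  have hεm : ε ∈ cl0 {l} := G4.root_mem hκ memd (coeff_ne hdd) hε
  have hfin : Fin' d ε P := gen_fin memd hκ hεm hP
  have hXm : aX d ε P ∉ cl0 {l} := aX_notMem hdd memd hκ hεm hε hP
  have hgε : qv d (g ε) = 0 := J.map_root (J.rh g) hgd hε
  have hgεm : g ε ∈ cl0 {l} := G4.root_mem hκ memd (coeff_ne hdd) hgε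
  have hfin' : Fin' d (g ε) (gfun (g : N →+* N) hg P) := J.map_fin (J.rh g) hgd hfin
  have hX' : aX d (g ε) (gfun (g : N →+* N) hg P) = aX d ε P :=
    (J.map_aX (J.rh g) hgd ε P).symm.trans hX
  have hY' : aY d (g ε) (gfun (g : N →+* N) hg P) = aY d ε P :=
    (J.map_aY (J.rh g) hgd ε P).symm.trans hY
  by_cases hεε : ε = g ε
  · refine ⟨0, smul_zero _, ?_⟩
    rw [add_zero]
    rw [← hεε] at hfin' hX' hY'
    exact hfin'.inj hdd hε hfin hX' hY'
  · refine ⟨tor d ε (g ε), two_tor hdd hε hgε hεε, ?_⟩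
    obtain ⟨h1, h2, h3⟩ := change hdd hε hgε hεε hfin (fun h0 => hXm (by rw [h0]; exact hgεm))
    exact hfin'.inj hdd hgε h1 (hX'.trans h2.symm) (hY'.trans h3.symm)

end

section

variable {A N ι : Type} [AddCommGroup A] [Field N] [Algebra ℂ N] [IsAlgClosed N]

/-- A finite set of quartics with the same invariants, permuted by the automorphisms. -/
structure TriD (kap : ι → N) (c : ι → Fin 5 → N) (l a b : N) : Prop where
  deg : Algebra.trdeg ℂ N = 4
  tr : Transcendental ℂ l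
  ktr : ∀ i, Transcendental ℂ (kap i)
  kmem : ∀ i, kap i ∈ cl0 {l}
  lmem : ∀ i, l ∈ cl0 {kap i}
  memc : ∀ i j, c i j ∈ cl0 {l}
  fixk : ∀ (g : N ≃ₐ[ℂ] N) i, g (kap i) = kap i → ∀ j, g (c i j) = c i j
  perm : ∀ g : N ≃ₐ[ℂ] N, g l = l → ∃ σ : Equiv.Perm ι,
    ∀ i, g (kap i) = kap (σ i) ∧ ∀ j, g (c i j) = c (σ i) j
  ha : ∀ i, -qI (c i) / 3 = a
  hb : ∀ i, -qJ (c i) / 27 = b
  hd : 4 * a ^ 3 + 27 * b ^ 2 ≠ 0

variable [CharZero N] [DecidableEq N]
variable {kap : ι → N} {c : ι → Fin 5 → N} {l a b : N} {B : N → N → N → A} {𝓡 : AddSubgroup A}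

theorem TriD.disc (T : TriD kap c l a b) (i : ι) : 4 * qI (c i) ^ 3 ≠ qJ (c i) ^ 2 := by
  intro h0
  apply T.hd
  rw [← T.ha i, ← T.hb i]
  linear_combination (-1 / 27) * h0

theorem TriD.cl (T : TriD kap c l a b) (i : ι) : cl0 {kap i} = cl0 ({l} : Set N) := by
  apply le_antisymm
  · refine cl0_le (cl0_closed _) ?_
    rintro _ rfl
    exact T.kmem i
  · refine cl0_le (cl0_closed _) ?_
    rintro _ rfl
    exact T.lmem i

theorem TriD.amem (T : TriD kap c l a b) (i : ι) : a ∈ cl0 ({l} : Set N) := by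
  rw [← T.ha i]
  exact a_mem (T.memc i)

theorem TriD.bmem (T : TriD kap c l a b) (i : ι) : b ∈ cl0 ({l} : Set N) := by
  rw [← T.hb i]
  exact b_mem (T.memc i)

/-- the cycle of a point of the jacobian -/
noncomputable def bt (T : TriD kap c l a b) (B : N → N → N → A) (ε : ι → N) (i : ι)
    (P : (wc a b).toAffine.Point) : A :=
  B (kap i) (aX (c i) (ε i) (pc (T.ha i) (T.hb i) P)) (aY (c i) (ε i) (pc (T.ha i) (T.hb i) P))

/-- **Additivity on generic points.** -/
theorem TriD.gad (T : TriD kap c l a b) (hB : Star3 kap c l B 𝓡) {ε : ι → N}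
    (hε : ∀ i, qv (c i) (ε i) = 0) (i : ι) :
    Gad l (fun P => (QuotientAddGroup.mk (bt T B ε i P) : A ⧸ 𝓡)) := by
  obtain ⟨s, hs0, hs⟩ := exists_lv (kap i)
  have hcl : cl0 {s} = cl0 ({l} : Set N) := by rw [cl0_lv hs0, hs, T.cl i]
  have hst : Transcendental ℂ s := tr_of_lv (by rw [hs]; exact T.ktr i)
  have hfix : ∀ g : N ≃ₐ[ℂ] N, g s = s ∨ g s = s⁻¹ → ∀ j, g (c i j) = c i j := by
    intro g hg
    apply T.fixk g i
    have h1 := map_lv g.toAlgHom s
    change g (lv s) = lv (g s) at h1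
    rw [← hs, h1]
    rcases hg with h | h
    · rw [h]
    · rw [h, lv_inv hs0]
  have TQi : H637.TQ (c i) s (ε i) :=
    ⟨T.deg, hst, by rw [hcl]; exact T.memc i, hfix, T.disc i, hε i⟩
  let B' : N → N → N → A := fun e X Y => B (lv e) X Y
  have hB' : H637.Star (c i) s B' 𝓡 := by
    intro L hL hLa n e X Y hgen hperm
    have he : ∀ k, lv (e k) = kap i := by
      intro k
      rw [← hs]
      rcases (hgen k).1 with h | h
      · rw [h]
      · rw [h, lv_inv hs0]
    refine hB L hL hLa n (fun k => lv (e k)) X Y (fun k => ⟨i, he k, ?_, (hgen k).2.2⟩)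
      fun g hg => ?_
    · rw [← hcl]
      exact (hgen k).2.1
    · obtain ⟨σ, hσ⟩ := hperm g hg
      refine ⟨σ, fun k => ⟨?_, (hσ k).2.1, (hσ k).2.2⟩⟩
      have h1 := map_lv g.toAlgHom (e k)
      change g (lv (e k)) = lv (g (e k)) at h1
      change g (lv (e k)) = lv (e (σ k))
      rw [h1, (hσ k).1]
  have hbe : ∀ P : (wc a b).toAffine.Point, bt T B ε i P =
      H637.be B' (c i) (ε i) s (pc (T.ha i) (T.hb i) P) := by
    intro P
    unfold bt H637.be
    change _ = B (lv s) _ _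
    rw [hs]
  refine ⟨T.deg, T.tr, T.amem i, T.bmem i, T.hd, fun P hP => ?_, fun P Q R h => ?_⟩
  · have h1 := TQi.rel_neg hB' (e := s) (Or.inl rfl) (P := pc (T.ha i) (T.hb i) P)
      (by rw [pc_inF, hcl]; exact hP)
    rw [← map_neg, ← hbe, ← hbe] at h1
    rw [← QuotientAddGroup.mk_add]
    exact (QuotientAddGroup.eq_zero_iff _).2 h1
  · have h0 : ∀ F : IntermediateField ℂ N, ∀ Q : (wc a b).toAffine.Point,
      InF F (pc (T.ha i) (T.hb i) Q) ↔ InF F Q := fun F Q => pc_inF _ _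
    have h1 := TQi.rel_star hB' (e := s) (Or.inl rfl)
      ![pc (T.ha i) (T.hb i) P, pc (T.ha i) (T.hb i) Q, pc (T.ha i) (T.hb i) R,
        pc (T.ha i) (T.hb i) (-(P + Q + R))]
      (by
        change pc (T.ha i) (T.hb i) P + pc (T.ha i) (T.hb i) Q + (pc (T.ha i) (T.hb i) R +
          pc (T.ha i) (T.hb i) (-(P + Q + R))) = 0
        rw [← map_add, ← map_add, ← map_add]
        have h2 : P + Q + (R + -(P + Q + R)) = 0 := by abel
        rw [h2, map_zero])
      (k1_closed P) (k2_closed P Q) (by rw [hcl]; exact le_k1 P) (k1_le_k2 P Q)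
      (by rw [hcl]; exact fun h2 => h.one T.deg (T.amem i) (T.bmem i) ((h0 _ _).1 h2))
      ((h0 _ _).2 (inF_k1 (T.amem i) (T.bmem i) P))
      (fun h2 => h.two T.deg (T.amem i) (T.bmem i) ((h0 _ _).1 h2))
      ((h0 _ _).2 (inF_k2r (T.amem i) (T.bmem i) P Q))
      (fun h2 => h.three T.deg (T.amem i) (T.bmem i) ((h0 _ _).1 h2))
      (fun F hF hlF m0 m1 m2 z => h F hF (by rw [← hcl]; exact hlF) ((h0 _ _).1 m0)
        ((h0 _ _).1 m1) ((h0 _ _).1 m2) z)
    rw [Fin.sum_univ_four] at h1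
    change H637.be B' (c i) (ε i) s (pc (T.ha i) (T.hb i) P) +
      H637.be B' (c i) (ε i) s (pc (T.ha i) (T.hb i) Q) +
      H637.be B' (c i) (ε i) s (pc (T.ha i) (T.hb i) R) +
      H637.be B' (c i) (ε i) s (pc (T.ha i) (T.hb i) (-(P + Q + R))) ∈ 𝓡 at h1
    rw [← hbe, ← hbe, ← hbe, ← hbe] at h1
    rw [← QuotientAddGroup.mk_add, ← QuotientAddGroup.mk_add, ← QuotientAddGroup.mk_add]
    exact (QuotientAddGroup.eq_zero_iff _).2 h1

/-- the action on the points -/
theorem TriD.pt_act (T : TriD kap c l a b) {ε : ι → N} (hε : ∀ i, qv (c i) (ε i) = 0)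
    (g : N ≃ₐ[ℂ] N) (hgl : g l = l) (hg : (g : N →+* N) a = a ∧ (g : N →+* N) b = b)
    (i j : ι) (hcj : ∀ k, g (c i k) = c j k) :
    ∃ u : (wc a b).toAffine.Point, (2 : ℕ) • u = 0 ∧ ∀ P : (wc a b).toAffine.Point,
      ¬ InF (cl0 {l}) P →
      g (aX (c i) (ε i) (pc (T.ha i) (T.hb i) P)) =
        aX (c j) (ε j) (pc (T.ha j) (T.hb j) (gfun (g : N →+* N) hg P + u)) ∧
      g (aY (c i) (ε i) (pc (T.ha i) (T.hb i) P)) =
        aY (c j) (ε j) (pc (T.ha j) (T.hb j) (gfun (g : N →+* N) hg P + u)) := by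
  have h0 : qv (c j) (g (ε i)) = 0 := by
    have h1 := J.map_qv (J.rh g) (c i) (ε i)
    have h2 : (fun k => (J.rh g) (c i k)) = c j := funext hcj
    rw [h2, hε i, map_zero] at h1
    exact h1.symm
  have hgen : ∀ P : (wc a b).toAffine.Point, ¬ InF (cl0 {l}) P →
      ¬ InF (cl0 {l}) (gfun (g : N →+* N) hg P) := by
    intro P hP h
    apply hP
    rcases P with (_ | ⟨x, y, hxy⟩)
    · exact inF_zero _
    · obtain ⟨h1, h2⟩ := h (g x) (g y) (gfun_aux (g : N →+* N) hg hxy) rfl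
      have h3 := map_kap (symm_kap (Or.inl hgl)) h1
      have h4 := map_kap (symm_kap (Or.inl hgl)) h2
      rw [AlgEquiv.symm_apply_apply] at h3 h4
      exact inF_some _ h3 h4
  by_cases hεε : g (ε i) = ε j
  · refine ⟨0, smul_zero _, fun P hP => ?_⟩
    have h1 := map_aXc g hcj (T.ha i) (T.hb i) (T.ha j) (T.hb j) hg (ε i) P
    rw [hεε] at h1
    rw [add_zero]
    exact h1
  · obtain ⟨u, hu⟩ := (pc_bij (T.ha j) (T.hb j)).2 (tor (c j) (g (ε i)) (ε j))
    refine ⟨u, ?_, fun P hP => ?_⟩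
    · apply (pc_bij (T.ha j) (T.hb j)).1
      rw [map_nsmul, hu, map_zero]
      exact two_tor (T.disc j) h0 (hε j) hεε
    · have h1 := map_aXc g hcj (T.ha i) (T.hb i) (T.ha j) (T.hb j) hg (ε i) P
      have hκ := closed_cl0 ({l} : Set N)
      have h2 : g (ε i) ∈ cl0 {l} := G4.root_mem hκ (T.memc j) (coeff_ne (T.disc j)) h0
      have h3 : ¬ InF (cl0 {l}) (pc (T.ha j) (T.hb j) (gfun (g : N →+* N) hg P)) := by
        rw [pc_inF]
        exact hgen P hP
      obtain ⟨-, h4, h5⟩ := change (T.disc j) h0 (hε j) hεε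
        (gen_fin (T.memc j) hκ h2 h3) (fun h6 =>
          aX_notMem (T.disc j) (T.memc j) hκ h2 h0 h3 (by
            rw [h6]
            exact G4.root_mem hκ (T.memc j) (coeff_ne (T.disc j)) (hε j)))
      rw [map_add, hu, h4, h5]
      exact h1

/-- **(RES)** the sum over all the quartics and all the translates by points of order two -/
theorem TriD.res [Fintype ι] (T : TriD kap c l a b) (hB : Star3 kap c l B 𝓡) {ε : ι → N}
    (hε : ∀ i, qv (c i) (ε i) = 0) {d : Fin 5 → N} (memd : ∀ i, d i ∈ cl0 {l})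
    (fixd : ∀ g : N ≃ₐ[ℂ] N, g l = l → ∀ i, g (d i) = d i)
    (had : -qI d / 3 = a) (hbd : -qJ d / 27 = b)
    (hrat : ∀ x y t₁ t₂ : N, x ∉ cl0 {l} → t₁ ∉ clo (cl0 {l}) {x} →
      t₂ ∉ clo (clo (cl0 {l}) {x}) {t₁} → y ^ 2 = qv d x →
      IsRational (IntermediateField.adjoin ℂ ({l, x, y, t₁, t₂} : Set N)))
    {P : (wc a b).toAffine.Point} (hP : ¬ InF (cl0 {l}) P) :
    ∑ i, ∑ t ∈ tors2 a b, bt T B ε i (P + t) ∈ 𝓡 := by
  have hκ := closed_cl0 ({l} : Set N)
  have hdd : 4 * qI d ^ 3 ≠ qJ d ^ 2 := by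
    intro h0
    apply T.hd
    rw [← had, ← hbd]
    linear_combination (-1 / 27) * h0
  have ham : a ∈ cl0 {l} := by rw [← had]; exact a_mem memd
  have hbm : b ∈ cl0 {l} := by rw [← hbd]; exact b_mem memd
  obtain ⟨δ, hδ⟩ := J.exists_root hdd
  have hδm : δ ∈ cl0 {l} := G4.root_mem hκ memd (coeff_ne hdd) hδ
  have hP' : ¬ InF (cl0 {l}) (pc had hbd P) := by rwa [pc_inF]
  have hfin : Fin' d δ (pc had hbd P) := gen_fin memd hκ hδm hP'
  have hXm : aX d δ (pc had hbd P) ∉ cl0 {l} := aX_notMem hdd memd hκ hδm hδ hP'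
  obtain ⟨t₁, ht₁⟩ := exists_notMem1 T.deg l (aX d δ (pc had hbd P))
  obtain ⟨t₂, ht₂⟩ := exists_notMem2 T.deg l (aX d δ (pc had hbd P)) t₁
  have hL := hrat _ _ t₁ t₂ hXm ht₁ ht₂ (hfin.eqn hδ)
  rw [Finset.sum_congr rfl fun i _ => (Finset.sum_coe_sort (tors2 a b)
    (fun t => bt T B ε i (P + t))).symm]
  rw [← Fintype.sum_prod_type' (f := fun (i : ι) (t : {t // t ∈ tors2 a b}) =>
    bt T B ε i (P + t.1))]
  have hgP : ∀ t : {t // t ∈ tors2 a b}, ¬ InF (cl0 {l}) (P + t.1) := fun t =>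
    gen_add2 hκ ham hbm hP (mem_tors2.1 t.2)
  refine hB.fintype _ hL ⟨fun z => mem_cl0.1 ?_⟩ (fun p : ι × {t // t ∈ tors2 a b} => kap p.1)
    _ _ (fun p => ⟨p.1, rfl, ?_, ?_⟩) fun g hg => ?_
  · exact full T.deg T.tr hXm ht₁ ht₂ (closed_cl0 _)
      (subset_cl0 _ (by simp)) (subset_cl0 _ (by simp)) (subset_cl0 _ (by simp))
      (subset_cl0 _ (by simp)) z
  · have h1 : ¬ InF (cl0 {l}) (pc (T.ha p.1) (T.hb p.1) (P + p.2.1)) := by
      rw [pc_inF]
      exact hgP p.2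
    exact aX_notMem (T.disc p.1) (T.memc p.1) hκ
      (G4.root_mem hκ (T.memc p.1) (coeff_ne (T.disc p.1)) (hε p.1)) (hε p.1) h1
  · have h1 : ¬ InF (cl0 {l}) (pc (T.ha p.1) (T.hb p.1) (P + p.2.1)) := by
      rw [pc_inF]
      exact hgP p.2
    exact Fin'.eqn (hε p.1) (gen_fin (T.memc p.1) hκ
      (G4.root_mem hκ (T.memc p.1) (coeff_ne (T.disc p.1)) (hε p.1)) h1)
  · have hgl : g l = l := hg _ (IntermediateField.subset_adjoin _ _ (by simp))
    have hgX := hg _ (IntermediateField.subset_adjoin ℂ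
      ({l, aX d δ (pc had hbd P), aY d δ (pc had hbd P), t₁, t₂} : Set N)
      (show aX d δ (pc had hbd P) ∈ _ by simp))
    have hgY := hg _ (IntermediateField.subset_adjoin ℂ
      ({l, aX d δ (pc had hbd P), aY d δ (pc had hbd P), t₁, t₂} : Set N)
      (show aY d δ (pc had hbd P) ∈ _ by simp))
    have hgab : (g : N →+* N) a = a ∧ (g : N →+* N) b = b := by
      rw [← had, ← hbd]
      exact fixW (fixd g hgl)
    obtain ⟨τ, hτ, hgPτ⟩ := fixpt had hbd memd hdd hδ hP g (fixd g hgl) hgab hgX hgY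
    obtain ⟨σ, hσ⟩ := T.perm g hgl
    choose u hu hact using fun i => T.pt_act hε g hgl hgab i (σ i) (hσ i).2
    have h2 : ∀ t : {t // t ∈ tors2 a b}, (2 : ℕ) • gfun (g : N →+* N) hgab t.1 = 0 := by
      intro t
      have h := gfun_nsmul (g : N →+* N) hgab 2 t.1
      rw [mem_tors2.1 t.2] at h
      exact h.symm
    let F : ι × {t // t ∈ tors2 a b} → ι × {t // t ∈ tors2 a b} := fun p =>
      (σ p.1, ⟨τ + gfun (g : N →+* N) hgab p.2.1 + u p.1, by
        rw [mem_tors2, nsmul_add, nsmul_add, hτ, hu, h2, add_zero, add_zero]⟩)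
    have hFinj : Function.Injective F := by
      rintro ⟨i, t⟩ ⟨j, t'⟩ h
      have h3 : σ i = σ j := congrArg Prod.fst h
      have h4 := σ.injective h3
      subst h4
      have h5 : τ + gfun (g : N →+* N) hgab t.1 + u i = τ + gfun (g : N →+* N) hgab t'.1 + u i :=
        congrArg (fun p => p.2.1) h
      have h6 := gfun_injective (g : N →+* N) hgab (add_left_cancel (add_right_cancel h5))
      rw [Subtype.ext h6]
    refine ⟨Equiv.ofBijective F (Finite.injective_iff_bijective.1 hFinj), ?_⟩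
    rintro ⟨i, t⟩
    obtain ⟨k1, k2⟩ := hact i _ (hgP t)
    have k3 : gfun (g : N →+* N) hgab (P + t.1) + u i =
        P + (τ + gfun (g : N →+* N) hgab t.1 + u i) := by
      rw [gfun_add, hgPτ]
      abel
    rw [k3] at k1 k2
    exact ⟨(hσ i).1, k1, k2⟩

end

end Vale.Agent.P297.H54
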