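import Vale.Agent.P297.H600.QDict

/-!
Duplication on the jacobian of a quartic in terms of the covariants of degree four and six.
-/

set_option linter.unusedSectionVars false

namespace Vale.Agent.P297.H54

open Vale.Agent.P297.Z3 Vale.Agent.P297.G4 WeierstrassCurve WeierstrassCurve.Affine

section

variable {k : Type} [CommRing k]

/-- the covariant of degree four -/
def g4 (c : Fin 5 → k) (x : k) : k :=
  (3 * c 3 ^ 2 - 8 * c 4 * c 2) * x ^ 4 + 4 * (c 3 * c 2 - 6 * c 4 * c 1) * x ^ 3 +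
    2 * (2 * c 2 ^ 2 - 24 * c 4 * c 0 - 3 * c 3 * c 1) * x ^ 2 +
    4 * (c 2 * c 1 - 6 * c 3 * c 0) * x + (3 * c 1 ^ 2 - 8 * c 2 * c 0)

/-- the covariant of degree six -/
def g6 (c : Fin 5 → k) (x : k) : k :=
  (c 3 ^ 3 + 8 * c 4 ^ 2 * c 1 - 4 * c 4 * c 3 * c 2) * x ^ 6 +
    2 * (16 * c 4 ^ 2 * c 0 + 2 * c 4 * c 3 * c 1 - 4 * c 4 * c 2 ^ 2 + c 3 ^ 2 * c 2) * x ^ 5 +
    5 * (8 * c 4 * c 3 * c 0 + c 3 ^ 2 * c 1 - 4 * c 4 * c 2 * c 1) * x ^ 4 +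
    20 * (c 3 ^ 2 * c 0 - c 4 * c 1 ^ 2) * x ^ 3 -
    5 * (8 * c 4 * c 1 * c 0 + c 3 * c 1 ^ 2 - 4 * c 3 * c 2 * c 0) * x ^ 2 -
    2 * (16 * c 4 * c 0 ^ 2 + 2 * c 3 * c 1 * c 0 - 4 * c 2 ^ 2 * c 0 + c 2 * c 1 ^ 2) * x -
    (c 1 ^ 3 + 8 * c 3 * c 0 ^ 2 - 4 * c 2 * c 1 * c 0)

theorem g4_at {c : Fin 5 → k} {e : k} (he : qv c e = 0) (h : k) : g4 c (e + h) =
    (3 * q3 c e ^ 2 - 8 * c 4 * q2 c e) * h ^ 4 + 4 * (q3 c e * q2 c e - 6 * c 4 * q1 c e) * h ^ 3 +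
    2 * (2 * q2 c e ^ 2 - 3 * q3 c e * q1 c e) * h ^ 2 +
    4 * (q2 c e * q1 c e) * h + 3 * q1 c e ^ 2 := by
  unfold qv at he
  unfold g4 q1 q2 q3
  linear_combination (-(48 * c 4) * h ^ 2 - 24 * (c 3 + 4 * c 4 * e) * h -
    8 * (c 2 + 3 * c 3 * e + 6 * c 4 * e ^ 2)) * he

theorem g6_at {c : Fin 5 → k} {e : k} (he : qv c e = 0) (h : k) : g6 c (e + h) =
    (q3 c e ^ 3 + 8 * c 4 ^ 2 * q1 c e - 4 * c 4 * q3 c e * q2 c e) * h ^ 6 +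
    2 * (2 * c 4 * q3 c e * q1 c e - 4 * c 4 * q2 c e ^ 2 + q3 c e ^ 2 * q2 c e) * h ^ 5 +
    5 * (q3 c e ^ 2 * q1 c e - 4 * c 4 * q2 c e * q1 c e) * h ^ 4 -
    20 * (c 4 * q1 c e ^ 2) * h ^ 3 - 5 * (q3 c e * q1 c e ^ 2) * h ^ 2 -
    2 * (q2 c e * q1 c e ^ 2) * h - q1 c e ^ 3 := by
  have h0 : c 0 = -(c 1 * e + c 2 * e ^ 2 + c 3 * e ^ 3 + c 4 * e ^ 4) := by
    unfold qv at he
    linear_combination he
  unfold g6 q1 q2 q3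
  rw [h0]
  ring

end

section

variable {k : Type} [Field k] [CharZero k] [DecidableEq k] {c : Fin 5 → k} {e : k}

/-- **The duplication.** -/
theorem two_psi (hc : 4 * qI c ^ 3 ≠ qJ c ^ 2) (he : qv c e = 0) {P : (Wq c).Point}
    (hP : Fin' c e P) (hY : aY c e P ≠ 0) :
    ∃ h, (2 : ℕ) • P = Point.some (g4 c (aX c e P) / (12 * aY c e P ^ 2))
      (-g6 c (aX c e P) / (8 * aY c e P ^ 3)) h := by
  obtain ⟨x, y, h, rfl, hx⟩ := hP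
  have hA := q1_ne hc he
  obtain ⟨z, rfl⟩ : ∃ z, x = z + q2 c e / 3 := ⟨x - q2 c e / 3, by ring⟩
  have hz : z ≠ 0 := by
    rintro rfl
    apply hx
    ring
  have h5 := wc_equation.1 h.1
  rw [wq_eq he] at h5
  have hXe : aX c e (Point.some _ y h) = e + q1 c e / z := by
    rw [aX_some, add_sub_cancel_right]
  have hYe : aY c e (Point.some _ y h) = q1 c e * y / z ^ 2 := by
    rw [aY_some, add_sub_cancel_right]
  rw [hYe] at hY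
  have hy : y ≠ 0 := by
    rintro rfl
    apply hY
    rw [mul_zero, zero_div]
  have hy1 : y ≠ (wc (-qI c / 3) (-qJ c / 27)).toAffine.negY (z + q2 c e / 3) y := by
    rw [wc_negY]
    intro h0
    apply hy
    have h1 : (2 : k) * y = 0 := by linear_combination h0
    exact (mul_eq_zero.1 h1).resolve_left two_ne_zero
  obtain ⟨D, hD⟩ : ∃ D, D = 3 * z ^ 2 + 2 * q2 c e * z + q1 c e * q3 c e := ⟨_, rfl⟩
  have hsl : (Wq c).slope (z + q2 c e / 3) (z + q2 c e / 3) y y = D / (2 * y) := by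
    rw [Affine.slope_of_Y_ne rfl hy1, wc_negY, hD]
    simp only [wc]
    rw [qI_at he]
    have h1 : y - -y = 2 * y := by ring
    rw [h1]
    congr 1
    ring
  have hdbl := Point.add_self_of_Y_ne (h₁ := h) hy1
  rw [hXe, hYe, g4_at he, g6_at he]
  obtain ⟨x', hx'⟩ : ∃ x', x' = (Wq c).addX (z + q2 c e / 3) (z + q2 c e / 3)
      ((Wq c).slope (z + q2 c e / 3) (z + q2 c e / 3) y y) := ⟨_, rfl⟩
  obtain ⟨y', hy'⟩ : ∃ y', y' = (Wq c).addY (z + q2 c e / 3) (z + q2 c e / 3) y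
      ((Wq c).slope (z + q2 c e / 3) (z + q2 c e / 3) y y) := ⟨_, rfl⟩
  have hx2 : x' = D ^ 2 / (4 * y ^ 2) - 2 * (z + q2 c e / 3) := by
    rw [hx', wc_addX, hsl]
    field_simp
    ring
  have hy2 : y' = -(D / (2 * y) * (x' - (z + q2 c e / 3)) + y) := by
    rw [hx2, hy', wc_addY, hsl]
    field_simp
    ring
  have k0 : 4 * y ^ 2 * x' = D ^ 2 - 8 * y ^ 2 * (z + q2 c e / 3) := by
    rw [hx2]
    field_simp
    ring
  have k1' : 12 * y ^ 2 * x' = (3 * q3 c e ^ 2 - 8 * c 4 * q2 c e) * q1 c e ^ 2 +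
      4 * (q3 c e * q2 c e - 6 * c 4 * q1 c e) * q1 c e * z +
      2 * (2 * q2 c e ^ 2 - 3 * q3 c e * q1 c e) * z ^ 2 +
      4 * q2 c e * z ^ 3 + 3 * z ^ 4 := by
    have h6 : 12 * y ^ 2 * x' = 3 * D ^ 2 - 24 * y ^ 2 * (z + q2 c e / 3) := by
      linear_combination 3 * k0
    rw [h6, hD]
    linear_combination (-24 * z - 8 * q2 c e) * h5
  have k2' : 8 * y ^ 3 * y' = -((q3 c e ^ 3 + 8 * c 4 ^ 2 * q1 c e -
      4 * c 4 * q3 c e * q2 c e) * q1 c e ^ 3 +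
      2 * (2 * c 4 * q3 c e * q1 c e - 4 * c 4 * q2 c e ^ 2 + q3 c e ^ 2 * q2 c e) *
        q1 c e ^ 2 * z +
      5 * (q3 c e ^ 2 * q1 c e - 4 * c 4 * q2 c e * q1 c e) * q1 c e * z ^ 2 -
      20 * (c 4 * q1 c e ^ 2) * z ^ 3 - 5 * (q3 c e * q1 c e) * z ^ 4 -
      2 * q2 c e * z ^ 5 - z ^ 6) := by
    have h6 : 8 * y ^ 3 * y' = -(4 * y ^ 2 * D * (x' - (z + q2 c e / 3)) + 8 * y ^ 4) := by
      rw [hy2]
      field_simp
      ring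
    have h7 : 8 * y ^ 3 * y' = -(D ^ 3 - 12 * (z + q2 c e / 3) * D * y ^ 2 +
        8 * (y ^ 2) * (y ^ 2)) := by
      rw [h6]
      linear_combination (-D) * k0
    rw [h7, h5, hD]
    ring
  have k1 : x' = ((3 * q3 c e ^ 2 - 8 * c 4 * q2 c e) * (q1 c e / z) ^ 4 +
      4 * (q3 c e * q2 c e - 6 * c 4 * q1 c e) * (q1 c e / z) ^ 3 +
      2 * (2 * q2 c e ^ 2 - 3 * q3 c e * q1 c e) * (q1 c e / z) ^ 2 +
      4 * (q2 c e * q1 c e) * (q1 c e / z) + 3 * q1 c e ^ 2) /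
      (12 * (q1 c e * y / z ^ 2) ^ 2) := by
    have h6 : x' = (12 * y ^ 2 * x') / (12 * y ^ 2) := by field_simp
    rw [h6, k1']
    field_simp
  have k2 : y' = -((q3 c e ^ 3 + 8 * c 4 ^ 2 * q1 c e - 4 * c 4 * q3 c e * q2 c e) *
      (q1 c e / z) ^ 6 +
      2 * (2 * c 4 * q3 c e * q1 c e - 4 * c 4 * q2 c e ^ 2 + q3 c e ^ 2 * q2 c e) *
        (q1 c e / z) ^ 5 +
      5 * (q3 c e ^ 2 * q1 c e - 4 * c 4 * q2 c e * q1 c e) * (q1 c e / z) ^ 4 -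
      20 * (c 4 * q1 c e ^ 2) * (q1 c e / z) ^ 3 - 5 * (q3 c e * q1 c e ^ 2) * (q1 c e / z) ^ 2 -
      2 * (q2 c e * q1 c e ^ 2) * (q1 c e / z) - q1 c e ^ 3) /
      (8 * (q1 c e * y / z ^ 2) ^ 3) := by
    have h6 : y' = (8 * y ^ 3 * y') / (8 * y ^ 3) := by field_simp
    rw [h6, k2']
    field_simp
  rw [← k1, ← k2]
  rw [two_nsmul, hdbl]
  subst hx' hy'
  exact ⟨_, rfl⟩

end

end Vale.Agent.P297.H54
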