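import Vale.Agent.P297.H54.T8Tri
import Vale.Agent.P297.H54.T8Psi

/-!
The conclusion for a finite set of quartics with invariants `p(l)`, `q(l)`, `deg p ≤ 4`,
`deg q ≤ 6`.
-/

set_option linter.unusedSectionVars false

open IntermediateField Polynomial WeierstrassCurve WeierstrassCurve.Affine

namespace Vale.Agent.P297.H54

open Vale.Agent.P297 Vale.Agent.P297.Gen Vale.Agent.P297.H839 Vale.Agent.P297.H600
open Vale.Agent.P297.H729 Vale.Agent.P297.Z3 Vale.Agent.P297.G4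

section

variable {N : Type} [Field N] [Algebra ℂ N] [IsAlgClosed N] [CharZero N] [DecidableEq N]

/-- A quartic over `ℂ(l)` with the given invariants, whose surface is rational. -/
theorem exists_ref (h4 : Algebra.trdeg ℂ N = 4) {p q : ℂ[X]} (hp : p.natDegree ≤ 4)
    (hq : q.natDegree ≤ 6) (hdisc : 4 * p ^ 3 ≠ q ^ 2)
    (hnt : ∀ α β a b : ℂ, ¬ (p = C α * (C a * X + C b) ^ 4 ∧ q = C β * (C a * X + C b) ^ 6))
    {l : N} (hl : Transcendental ℂ l) :
    ∃ d : Fin 5 → N, (∀ i, d i ∈ cl0 {l}) ∧ (∀ g : N ≃ₐ[ℂ] N, g l = l → ∀ i, g (d i) = d i) ∧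
      qI d = aeval l p ∧ qJ d = aeval l q ∧
      ∀ x y t₁ t₂ : N, x ∉ cl0 {l} → t₁ ∉ clo (cl0 {l}) {x} →
        t₂ ∉ clo (clo (cl0 {l}) {x}) {t₁} → y ^ 2 = qv d x →
        IsRational (IntermediateField.adjoin ℂ ({l, x, y, t₁, t₂} : Set N)) := by
  obtain ⟨D, hDp, hDq⟩ := H637.exists_pen p q hp hq
  obtain ⟨s, hs0, hs⟩ := exists_lv l
  have hcl : cl0 {s} = cl0 ({l} : Set N) := by rw [cl0_lv hs0, hs]
  have hst : Transcendental ℂ s := tr_of_lv (by rw [hs]; exact hl)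
  have hd1 : qI (H160.dq (fun i j => algebraMap ℂ N (D i j)) l) = aeval l p := by
    rw [← H637.aeval_penP, ← H55.map_qI, hDp]
    rfl
  have hd2 : qJ (H160.dq (fun i j => algebraMap ℂ N (D i j)) l) = aeval l q := by
    rw [← H637.aeval_penP, ← H55.map_qJ, hDq]
    rfl
  have hdl : ∀ l : ℂ, qI (H160.dq D l) = p.eval l ∧ qJ (H160.dq D l) = q.eval l := by
    intro l
    rw [← H637.eval_penP, ← H55.map_qI, ← H55.map_qJ, hDp, hDq]
    exact ⟨rfl, rfl⟩
  have hdx : H160.dx D 1 ^ 2 - 4 * H160.dx D 2 * H160.dx D 0 ≠ 0 := by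
    refine H212.Four.dx_disc_ne D ?_ ?_
    · by_contra hcon
      push Not at hcon
      apply hdisc
      apply Polynomial.funext
      intro l
      have h1 := hcon l
      rw [(hdl l).1, (hdl l).2] at h1
      rw [eval_mul, eval_pow, eval_pow, ← h1]
      congr 1
      exact Polynomial.eval_ofNat (R := ℂ) 4 l
    · intro α β a b hall
      apply hnt α β a b
      constructor
      · apply Polynomial.funext
        intro l
        rw [← (hdl l).1, (hall l).1]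
        simp only [eval_mul, eval_pow, eval_add, eval_C, eval_X]
      · apply Polynomial.funext
        intro l
        rw [← (hdl l).2, (hall l).2]
        simp only [eval_mul, eval_pow, eval_add, eval_C, eval_X]
  refine ⟨_, J.dq_mem D (subset_cl0 _ rfl), ?_, hd1, hd2, ?_⟩
  · intro g hg i
    have h3 := J.map_dq (J.rh g) (fun i j => algebraMap ℂ N (D i j)) l i
    change g _ = H160.dq (fun i j => g (algebraMap ℂ N (D i j))) (g l) i at h3
    rw [h3, hg]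
    simp only [AlgEquiv.commutes]
  · intro x y t₁ t₂ hx ht₁ ht₂ hy
    rw [← hcl] at hx ht₁ ht₂
    rw [← hs] at hy ⊢
    exact (H212.Four.jtwo h4 hdx hst hx ht₁ ht₂ hy).1

end

section

variable {A N ι : Type} [AddCommGroup A] [Field N] [Algebra ℂ N] [IsAlgClosed N] [CharZero N]
  [DecidableEq N] [Fintype ι]
variable {kap : ι → N} {c : ι → Fin 5 → N} {l a b : N} {B : N → N → N → A} {𝓡 : AddSubgroup A}

/-- **The conclusion on the jacobian.** -/
theorem tri_side (T : TriD kap c l a b) {p q : ℂ[X]} (hp : p.natDegree ≤ 4)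
    (hq : q.natDegree ≤ 6) (hdisc : 4 * p ^ 3 ≠ q ^ 2)
    (hnt : ∀ α β a b : ℂ, ¬ (p = C α * (C a * X + C b) ^ 4 ∧ q = C β * (C a * X + C b) ^ 6))
    (hap : a = -(aeval l p) / 3) (hbq : b = -(aeval l q) / 27) (hB : Star3 kap c l B 𝓡)
    {ε : ι → N} (hε : ∀ i, qv (c i) (ε i) = 0) :
    ∃ Φ : ι → ((wc a b).toAffine.Point →+ A ⧸ 𝓡),
      (∀ i P, ¬ InF (cl0 {l}) P →
        (2 : ℕ) • (QuotientAddGroup.mk (bt T B ε i P) : A ⧸ 𝓡) = (2 : ℕ) • Φ i P) ∧
      ∀ P, (8 : ℕ) • ∑ i, Φ i P = 0 := by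
  have h1 := fun i => (T.gad hB hε i).exists_hom
  choose Φ hΦ using h1
  refine ⟨Φ, hΦ, ?_⟩
  rcases isEmpty_or_nonempty ι with hι | ⟨⟨i₀⟩⟩
  · intro P
    rw [Finset.univ_eq_empty, Finset.sum_empty, smul_zero]
  have ham := T.amem i₀
  have hbm := T.bmem i₀
  obtain ⟨d, memd, fixd, hd1, hd2, hrat⟩ := exists_ref T.deg hp hq hdisc hnt T.tr
  have key : ∀ P : (wc a b).toAffine.Point, ¬ InF (cl0 {l}) P →
      (8 : ℕ) • ∑ i, Φ i P = 0 := by
    intro P hP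
    have h2 := T.res hB hε memd fixd (by rw [hap, hd1]) (by rw [hbq, hd2]) hrat hP
    have h3 : ∑ i, ∑ t ∈ tors2 a b, (QuotientAddGroup.mk (bt T B ε i (P + t)) : A ⧸ 𝓡) = 0 := by
      rw [← (QuotientAddGroup.eq_zero_iff _).2 h2]
      change _ = QuotientAddGroup.mk' 𝓡 _
      rw [map_sum]
      refine Finset.sum_congr rfl fun i _ => ?_
      rw [map_sum]
      rfl
    have h4 : (2 : ℕ) • ∑ i, ∑ t ∈ tors2 a b,
        (QuotientAddGroup.mk (bt T B ε i (P + t)) : A ⧸ 𝓡) =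
        (2 * (tors2 a b).card) • ∑ i, Φ i P := by
      rw [Finset.smul_sum, Finset.smul_sum]
      refine Finset.sum_congr rfl fun i _ => ?_
      rw [Finset.smul_sum]
      have h5 : ∀ t ∈ tors2 a b, (2 : ℕ) • (QuotientAddGroup.mk (bt T B ε i (P + t)) : A ⧸ 𝓡) =
          (2 : ℕ) • Φ i P := by
        intro t ht
        rw [hΦ i _ (gen_add2 (closed_cl0 _) ham hbm hP (mem_tors2.1 ht)), map_add, smul_add,
          ← map_nsmul (Φ i) 2 t, mem_tors2.1 ht, map_zero, add_zero]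
      rw [Finset.sum_congr rfl h5, Finset.sum_const, smul_smul, mul_comm]
    rw [h3, smul_zero] at h4
    obtain ⟨n, hn⟩ := card_tors2 (a := a) (b := b)
    have hle := card_tors2_le (a := a) (b := b)
    rw [hn] at hle h4
    have hn2 : n ≤ 2 := by
      by_contra h0
      have h3 : 2 ^ 3 ≤ 2 ^ n := Nat.pow_le_pow_right (by norm_num) (by omega)
      omega
    have h6 : (8 : ℕ) = 2 ^ (2 - n) * (2 * 2 ^ n) := by
      have h7 : 2 ^ (2 - n) * (2 * 2 ^ n) = 2 * (2 ^ (2 - n) * 2 ^ n) := by ring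
      rw [h7, ← pow_add, Nat.sub_add_cancel hn2]
      norm_num
    rw [h6, mul_smul, ← h4, smul_zero]
  intro P
  obtain ⟨Q, hQ⟩ := exists_gen2 (l := l) T.deg ham hbm T.hd P P
  have hQ0 : ¬ InF (cl0 {l}) Q := fun h => hQ (h.mono (le_k2 P P))
  have hPQ : ¬ InF (cl0 {l}) (P + Q) := by
    intro h
    apply hQ
    have h1 : Q = (P + Q) - P := by abel
    rw [h1]
    exact (h.mono (le_k2 P P)).sub (le_k2 P P ham) (inF_k2l ham hbm P P)
  have h2 := key _ hPQ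
  have h3 := key _ hQ0
  have h4 : ∑ i, Φ i (P + Q) = ∑ i, Φ i P + ∑ i, Φ i Q := by
    rw [← Finset.sum_add_distrib]
    exact Finset.sum_congr rfl fun i _ => map_add _ _ _
  rw [h4, smul_add, h3, add_zero] at h2
  exact h2

/-- a point of the curve from its coordinates -/
theorem TriD.exists_P (T : TriD kap c l a b) {ε : ι → N} (hε : ∀ i, qv (c i) (ε i) = 0)
    {i : ι} {X Y : N} (hX : X ∉ cl0 {l}) (hY : Y ^ 2 = qv (c i) X) :
    ∃ P : (wc a b).toAffine.Point, ¬ InF (cl0 {l}) P ∧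
      aX (c i) (ε i) (pc (T.ha i) (T.hb i) P) = X ∧ aY (c i) (ε i) (pc (T.ha i) (T.hb i) P) = Y ∧
      ∃ h, (2 : ℕ) • P = Point.some (g4 (c i) X / (12 * Y ^ 2)) (-g6 (c i) X / (8 * Y ^ 3)) h := by
  have hκ := closed_cl0 ({l} : Set N)
  have hεm : ε i ∈ cl0 {l} := G4.root_mem hκ (T.memc i) (coeff_ne (T.disc i)) (hε i)
  have hne : X ≠ ε i := fun h => hX (by rw [h]; exact hεm)
  have hY0 : Y ≠ 0 := by
    rintro rfl
    apply hX
    refine G4.root_mem hκ (T.memc i) (coeff_ne (T.disc i)) ?_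
    rw [← hY]
    ring
  obtain ⟨P', hfin, hPX, hPY⟩ := exists_fin (T.disc i) (hε i) hY hne
  obtain ⟨P, rfl⟩ := (pc_bij (T.ha i) (T.hb i)).2 P'
  refine ⟨P, ?_, hPX, hPY, ?_⟩
  · rw [← pc_inF (T.ha i) (T.hb i), ← aX_mem_iff (T.disc i) (T.memc i) hκ hεm (hε i) hfin, hPX]
    exact hX
  · have h0 := two_psi (T.disc i) (hε i) hfin (by rw [hPY]; exact hY0)
    rw [hPX, hPY] at h0
    obtain ⟨h, h2⟩ := h0
    have h3 : (wc a b).toAffine.Nonsingular (g4 (c i) X / (12 * Y ^ 2))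
        (-g6 (c i) X / (8 * Y ^ 3)) := by
      have h4 : (wc (-qI (c i) / 3) (-qJ (c i) / 27)).toAffine.Nonsingular
        (g4 (c i) X / (12 * Y ^ 2)) (-g6 (c i) X / (8 * Y ^ 3)) := h
      rw [T.ha i, T.hb i] at h4
      exact h4
    refine ⟨h3, ?_⟩
    apply (pc_bij (T.ha i) (T.hb i)).1
    obtain ⟨h5, h6⟩ := pc_some (T.ha i) (T.hb i) h3
    rw [map_nsmul, h2, h6]

/-- **The conclusion in terms of the two-covering.** -/
theorem tri_psi (T : TriD kap c l a b) {p q : ℂ[X]} (hp : p.natDegree ≤ 4)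
    (hq : q.natDegree ≤ 6) (hdisc : 4 * p ^ 3 ≠ q ^ 2)
    (hnt : ∀ α β a b : ℂ, ¬ (p = C α * (C a * X + C b) ^ 4 ∧ q = C β * (C a * X + C b) ^ 6))
    (hap : a = -(aeval l p) / 3) (hbq : b = -(aeval l q) / 27) (hB : Star3 kap c l B 𝓡) :
    ∃ Φ : ι → ((wc a b).toAffine.Point →+ A ⧸ 𝓡),
      (∀ i X Y, X ∉ cl0 {l} → Y ^ 2 = qv (c i) X →
        ∃ h, Φ i (Point.some (g4 (c i) X / (12 * Y ^ 2)) (-g6 (c i) X / (8 * Y ^ 3)) h) =
          (2 : ℕ) • (QuotientAddGroup.mk (B (kap i) X Y) : A ⧸ 𝓡)) ∧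
      ∀ P, (8 : ℕ) • ∑ i, Φ i P = 0 := by
  have hroot : ∀ i, ∃ ε, qv (c i) ε = 0 := fun i => q_root (c i) (T.disc i)
  choose ε hε using hroot
  obtain ⟨Φ, hΦ, h8⟩ := tri_side T hp hq hdisc hnt hap hbq hB hε
  refine ⟨Φ, fun i X Y hX hY => ?_, h8⟩
  obtain ⟨P, hP, hPX, hPY, h, h2⟩ := T.exists_P hε hX hY
  refine ⟨h, ?_⟩
  have h3 := hΦ i P hP
  unfold bt at h3
  rw [hPX, hPY] at h3
  rw [← h2, h3, map_nsmul]

end

end Vale.Agent.P297.H54
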