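import Vale.Agent.P297.H54.CubT
import Vale.Agent.P297.H521.Param

/-!
The hypotheses of `tside_cubic` for an equivariant family of cycles.
-/

set_option linter.unusedSectionVars false

open IntermediateField Polynomial WeierstrassCurve WeierstrassCurve.Affine Matrix

namespace Vale.Agent.P297.H54

open Vale.Agent.P297 Vale.Agent.P297.Gen Vale.Agent.P297.H839 Vale.Agent.P297.H600
open Vale.Agent.P297.H729 Vale.Agent.P297.Z3 Vale.Agent.P297.H72 Vale.Agent.P297.H521

section

variable {K N : Type} [Field K] [Algebra ℂ K] [Field N] [Algebra ℂ N]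

/-- The family of cycles is equivariant under the automorphisms that fix `δ`. -/
def EquC (δ : N) (B : N → N → N → ((K →ₐ[ℂ] N) →₀ ℤ)) : Prop :=
  ∀ g : N ≃ₐ[ℂ] N, g δ = δ → ∀ e X Y,
    Finsupp.mapDomain (fun φ : K →ₐ[ℂ] N => g.toAlgHom.comp φ) (B e X Y) = B (g e) (g X) (g Y)

/-- The family of cycles is equivariant at the generic points. -/
def EquG (δ : N) (f : Fin 10 → N) (D : N) (B : N → N → N → ((K →ₐ[ℂ] N) →₀ ℤ)) : Prop :=
  ∀ g : N ≃ₐ[ℂ] N, g δ = δ → ∀ e X Y, GenC δ f D e X Y →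
    Finsupp.mapDomain (fun φ : K →ₐ[ℂ] N => g.toAlgHom.comp φ) (B e X Y) = B (g e) (g X) (g Y)

variable {δ : N} {f : Fin 10 → N} {D : N} {B : N → N → N → ((K →ₐ[ℂ] N) →₀ ℤ)}
  {𝓡 : AddSubgroup ((K →ₐ[ℂ] N) →₀ ℤ)}

theorem EquC.equG (h : EquC δ B) : EquG δ f D B := fun g hg e X Y _ => h g hg e X Y

/-- **The third hypothesis is automatic.** -/
theorem StarC.of_equ (hB : EquG δ f D B) (hst : stableRelations K N ≤ 𝓡) : StarC δ f D B 𝓡 := by
  intro L hL hLa hδ n e X Y hgen hperm
  refine hst (stable_of_fixed L hL hLa _ fun g hg => ?_)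
  obtain ⟨σ, hσ⟩ := hperm g hg
  rw [map_sum]
  have h1 : ∀ i, act g.toAlgHom (B (e i) (X i) (Y i)) = B (e (σ i)) (X (σ i)) (Y (σ i)) := by
    intro i
    rw [act_apply, hB g (hg δ hδ) _ _ _ (hgen i), (hσ i).1, (hσ i).2.1, (hσ i).2.2]
  rw [Finset.sum_congr rfl fun i _ => h1 i]
  exact Equiv.sum_comp σ fun i => B (e i) (X i) (Y i)

end

section

variable {K N : Type} [Field K] [Algebra ℂ K] [Field N] [Algebra ℂ N] [IsAlgClosed N]

theorem mem_cl0_adj {S : Set N} {x : N} : x ∈ cl0 S ↔ IsAlgebraic (Algebra.adjoin ℂ S) x := by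
  rw [mem_cl0]
  exact IntermediateField.isAlgebraic_adjoin_iff

/-- A member of an independent family is transcendental over the others. -/
theorem indep_notMem {ι : Type} {v : ι → N} (hv : AlgebraicIndependent ℂ v) {s : Set ι} {i : ι}
    (hi : i ∉ s) : v i ∉ cl0 (v '' s) := by
  rw [mem_cl0]
  exact (IntermediateField.transcendental_adjoin_iff).2 (hv.transcendental_adjoin hi)

/-- Independence over the closure of `ℂ(δ)`. -/
theorem free_of_ind {δ s t : N} (h : AlgebraicIndependent ℂ ![δ, s, t]) :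
    Free (cl0 {δ}) ![s, t] := by
  have key : ∀ (i : Fin 2), ![s, t] i ∉ cl0 (![δ, s, t] '' {i.succ}ᶜ) := by
    intro i
    have h1 := indep_notMem h (s := {i.succ}ᶜ) (i := i.succ) (by simp)
    fin_cases i <;> exact h1
  intro i h0
  apply key i
  refine clo_le (closed_cl0 _) ?_ ?_ h0
  · refine cl0_le (closed_cl0 _) ?_
    rintro _ rfl
    exact subset_cl0 _ ⟨0, (Fin.succ_ne_zero i).symm, rfl⟩
  · rintro _ ⟨j, hj, rfl⟩
    refine subset_cl0 _ ⟨j.succ, ?_, ?_⟩
    · intro h2
      exact hj (Fin.succ_injective _ h2)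
    · fin_cases j <;> rfl

variable {δ : N} {f : Fin 10 → N} {D : N} {B : N → N → N → ((K →ₐ[ℂ] N) →₀ ℤ)}
  {m : ℤ}

/-- the equation of the points on the line `y = s x + t` -/
noncomputable def lp (f : Fin 10 → N) (s t : N) : N[X] :=
  Polynomial.C (f 0 + f 1 * s + f 3 * s ^ 2 + f 6 * s ^ 3) * Polynomial.X ^ 3 +
  Polynomial.C (f 1 * t + f 2 + 2 * f 3 * s * t + f 4 * s + 3 * f 6 * s ^ 2 * t + f 7 * s ^ 2) *
    Polynomial.X ^ 2 +
  Polynomial.C (f 3 * t ^ 2 + f 4 * t + f 5 + 3 * f 6 * s * t ^ 2 + 2 * f 7 * s * t + f 8 * s) *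
    Polynomial.X +
  Polynomial.C (f 6 * t ^ 3 + f 7 * t ^ 2 + f 8 * t + f 9)

theorem eval_lp (f : Fin 10 → N) (s t x : N) : (lp f s t).eval x = tc f x (s * x + t) 1 := by
  unfold lp tc
  simp only [eval_add, eval_mul, eval_pow, eval_C, eval_X]
  ring

theorem lp_natDegree (f : Fin 10 → N) (s t : N) : (lp f s t).natDegree ≤ 3 := by
  unfold lp
  compute_degree

theorem lp_coeff (f : Fin 10 → N) (s t : N) :
    (lp f s t).coeff 3 = f 0 + f 1 * s + f 3 * s ^ 2 + f 6 * s ^ 3 := by
  unfold lp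
  compute_degree!

/-- a cubic polynomial over a closed field has its roots in it -/
theorem mem_of_cubic {M : IntermediateField ℂ N} (hM : Closed M) {a b c d x : N} (ha : a ∈ M)
    (hb : b ∈ M) (hc : c ∈ M) (hd : d ∈ M) (h0 : a ≠ 0)
    (h : a * x ^ 3 + b * x ^ 2 + c * x + d = 0) : x ∈ M := by
  apply hM
  refine isAlgebraic_of_coeff (p := Polynomial.C a * Polynomial.X ^ 3 +
    Polynomial.C b * Polynomial.X ^ 2 + Polynomial.C c * Polynomial.X + Polynomial.C d) ?_ ?_ ?_
  · intro n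
    simp only [coeff_add, coeff_C_mul, coeff_X_pow, coeff_X, coeff_C]
    refine add_mem (add_mem (add_mem (mul_mem ha ?_) (mul_mem hb ?_)) (mul_mem hc ?_)) ?_
    · split_ifs
      · exact one_mem _
      · exact zero_mem _
    · split_ifs
      · exact one_mem _
      · exact zero_mem _
    · split_ifs
      · exact one_mem _
      · exact zero_mem _
    · split_ifs
      · exact hd
      · exact zero_mem _
  · intro h1
    have h2 := congrArg (fun p => coeff p 3) h1
    simp at h2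
    exact h0 h2
  · simp only [eval_add, eval_mul, eval_pow, eval_C, eval_X]
    exact h

theorem lp_lead {f : Fin 10 → N} {δ s t : N} (hf : ∀ i, f i ∈ cl0 {δ}) (hf6 : f 6 ≠ 0)
    (hs : s ∉ cl0 {δ}) : (lp f s t).coeff 3 ≠ 0 := by
  rw [lp_coeff]
  intro h
  apply hs
  refine mem_of_cubic (closed_cl0 _) (hf 6) (hf 3) (hf 1) (hf 0) hf6 ?_
  linear_combination h

theorem root_gen {f : Fin 10 → N} {δ s t x : N} (hf : ∀ i, f i ∈ cl0 {δ}) (hf6 : f 6 ≠ 0)
    (ht : t ∉ clo (cl0 {δ}) {s}) (h : tc f x (s * x + t) 1 = 0) : x ∉ cl0 {δ} := by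
  intro hx
  apply ht
  have hc : Closed (clo (cl0 {δ}) {s}) := closed_clo _ _
  have hle : cl0 {δ} ≤ clo (cl0 {δ}) {s} := le_clo _ _
  have hs : s ∈ clo (cl0 {δ}) {s} := subset_clo _ _ rfl
  have h1 : s * x + t ∈ cl0 {δ} := by
    refine mem_of_cubic (closed_cl0 _) (hf 6)
      (add_mem (mul_mem (hf 3) hx) (hf 7))
      (add_mem (add_mem (mul_mem (hf 1) (pow_mem hx 2)) (mul_mem (hf 4) hx)) (hf 8))
      (add_mem (add_mem (add_mem (mul_mem (hf 0) (pow_mem hx 3)) (mul_mem (hf 2) (pow_mem hx 2)))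
        (mul_mem (hf 5) hx)) (hf 9)) hf6 ?_
    unfold tc at h
    linear_combination h
  have h2 := sub_mem (hle h1) (mul_mem hs (hle hx))
  rwa [add_sub_cancel_left] at h2

open Classical in
/-- **The second hypothesis is automatic.** -/
theorem LineC.of_equ (hf : ∀ i, f i ∈ cl0 {δ}) (hf6 : f 6 ≠ 0) (hD : D ∈ cl0 {δ})
    (hB : EquG δ f D B) : LineC δ f D B (Rel m K N) := by
  intro e s t s' t' X X' he hst hst' hX hX' h h'
  have heκ : e ∈ cl0 {δ} := by
    apply closed_cl0
    refine isAlgebraic_of_coeff (p := Polynomial.X ^ 2 - Polynomial.C D) ?_ ?_ ?_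
    · intro n
      rw [coeff_sub, coeff_X_pow, coeff_C]
      refine sub_mem ?_ ?_
      · split_ifs
        · exact one_mem _
        · exact zero_mem _
      · split_ifs
        · exact hD
        · exact zero_mem _
    · exact (monic_X_pow_sub_C _ two_ne_zero).ne_zero
    · rw [eval_sub, eval_pow, eval_X, eval_C, he, sub_self]
  let B' : N → N → N → ((K →ₐ[ℂ] N) →₀ ℤ) := fun e X Y => if GenC δ f D e X Y then B e X Y else 0
  let V : (Fin 2 → N) → ((K →ₐ[ℂ] N) →₀ ℤ) := fun v =>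
    ∑ x ∈ (lp f (v 0) (v 1)).roots.toFinset, B' e x (v 0 * x + v 1)
  have hV : ∀ g : N ≃ₐ[ℂ] N, (∀ a ∈ cl0 {δ}, g a = a) → ∀ v,
      Finsupp.mapDomain (fun φ : K →ₐ[ℂ] N => g.toAlgHom.comp φ) (V v) = V (fun i => g (v i)) := by
    intro g hg v
    have hgf : ∀ i, g (f i) = f i := fun i => hg _ (hf i)
    have htc : ∀ x y, tc f (g x) (g y) 1 = g (tc f x y 1) := by
      intro x y
      unfold tc
      simp only [map_add, map_mul, map_pow, hgf, map_one]
    have hgen : ∀ x y, GenC δ f D e (g x) (g y) ↔ GenC δ f D e x y := by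
      intro x y
      unfold GenC
      rw [htc, map_eq_zero]
      have h1 : g x ∈ cl0 {δ} ↔ x ∈ cl0 {δ} := by
        constructor
        · intro h2
          have h3 := hg _ h2
          rw [g.injective h3] at h2
          exact h2
        · intro h2
          rw [hg _ h2]
          exact h2
      rw [h1]
    have hB' : ∀ x y, Finsupp.mapDomain (fun φ : K →ₐ[ℂ] N => g.toAlgHom.comp φ) (B' e x y) =
        B' e (g x) (g y) := by
      intro x y
      change Finsupp.mapDomain _ (if GenC δ f D e x y then B e x y else 0) =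
        if GenC δ f D e (g x) (g y) then B e (g x) (g y) else 0
      by_cases h1 : GenC δ f D e x y
      · rw [if_pos h1, if_pos ((hgen _ _).2 h1), hB g (hg _ (subset_cl0 _ rfl)) _ _ _ h1,
          hg e heκ]
      · rw [if_neg h1, if_neg (fun h2 => h1 ((hgen _ _).1 h2)), Finsupp.mapDomain_zero]
    have hlp : ∀ x, (lp f (g (v 0)) (g (v 1))).eval (g x) = g ((lp f (v 0) (v 1)).eval x) := by
      intro x
      rw [eval_lp, eval_lp, ← htc, map_add, map_mul]
    have hlp0 : lp f (g (v 0)) (g (v 1)) = (lp f (v 0) (v 1)).map (g : N →+* N) := by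
      apply Polynomial.funext
      intro x
      obtain ⟨y, rfl⟩ := g.surjective x
      rw [hlp]
      exact (Polynomial.eval_map_apply (g : N →+* N) y).symm
    change Finsupp.mapDomain _ (∑ x ∈ (lp f (v 0) (v 1)).roots.toFinset, _) =
      ∑ x ∈ (lp f (g (v 0)) (g (v 1))).roots.toFinset, _
    rw [Finsupp.mapDomain_finsetSum]
    refine Finset.sum_bij (fun x _ => g x) ?_ ?_ ?_ ?_
    · intro x hx
      rw [Multiset.mem_toFinset, mem_roots'] at hx ⊢
      refine ⟨?_, ?_⟩
      · rw [hlp0]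
        exact (Polynomial.map_ne_zero_iff (g : N →+* N).injective).2 hx.1
      · have h1 : (lp f (v 0) (v 1)).eval x = 0 := hx.2
        change (lp f (g (v 0)) (g (v 1))).eval (g x) = 0
        rw [hlp, h1, map_zero]
    · intro x _ y _ hxy
      exact g.injective hxy
    · intro y hy
      rw [Multiset.mem_toFinset, mem_roots'] at hy
      obtain ⟨x, rfl⟩ := g.surjective y
      refine ⟨x, ?_, rfl⟩
      rw [Multiset.mem_toFinset, mem_roots']
      refine ⟨?_, ?_⟩
      · intro h0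
        apply hy.1
        rw [hlp0, h0, Polynomial.map_zero]
      · have h1 : (lp f (g (v 0)) (g (v 1))).eval (g x) = 0 := hy.2
        rw [hlp] at h1
        exact (map_eq_zero g).1 h1
    · intro x _
      rw [hB', map_add, map_mul]
  have hsum : ∀ (s t : N) (X : Fin 3 → N), AlgebraicIndependent ℂ ![δ, s, t] →
      Function.Injective X → (∀ i, tc f (X i) (s * X i + t) 1 = 0) →
      ∑ i, B e (X i) (s * X i + t) = V ![s, t] := by
    intro s t X hst hX h
    have hfree := free_of_ind hst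
    have hs : s ∉ cl0 {δ} := fun h0 => hfree 0 (le_clo _ _ h0)
    have ht : t ∉ clo (cl0 {δ}) {s} := by
      intro h0
      apply hfree 1
      refine clo_mono le_rfl ?_ h0
      rintro _ rfl
      exact ⟨0, by simp, rfl⟩
    have hlead : (lp f s t).coeff 3 ≠ 0 := lp_lead hf hf6 hs
    have hp0 : lp f s t ≠ 0 := by
      intro h0
      rw [h0, coeff_zero] at hlead
      exact hlead rfl
    have hsub : Finset.univ.image X ⊆ (lp f s t).roots.toFinset := by
      intro x hx
      obtain ⟨i, -, rfl⟩ := Finset.mem_image.1 hx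
      rw [Multiset.mem_toFinset, mem_roots']
      refine ⟨hp0, ?_⟩
      change (lp f s t).eval _ = 0
      rw [eval_lp]
      exact h i
    have heq : Finset.univ.image X = (lp f s t).roots.toFinset := by
      apply Finset.eq_of_subset_of_card_le hsub
      rw [Finset.card_image_of_injective _ hX, Finset.card_univ, Fintype.card_fin]
      exact (Multiset.toFinset_card_le _).trans ((card_roots' _).trans (lp_natDegree _ _ _))
    change _ = ∑ x ∈ (lp f s t).roots.toFinset, B' e x (s * x + t)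
    rw [← heq, Finset.sum_image fun i _ j _ hij => hX hij]
    refine Finset.sum_congr rfl fun i _ => ?_
    refine (if_pos ?_).symm
    exact ⟨he, root_gen hf hf6 ht (h i), h i⟩
  rw [hsum s t X hst hX h, hsum s' t' X' hst' hX' h']
  exact multi_const (K := K) (m := m) (cl0 {δ}) V hV (free_of_ind hst) (free_of_ind hst')

theorem aeval_mem (r : ℂ[X]) : aeval δ r ∈ cl0 ({δ} : Set N) := by
  have h := Polynomial.aeval_algHom_apply (cl0 ({δ} : Set N)).val
    (⟨δ, subset_cl0 _ rfl⟩ : cl0 ({δ} : Set N)) r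
  change aeval δ r = _ at h
  rw [h]
  exact Subtype.property _

/-- **The other side for an equivariant family of cycles.** -/
theorem tside_equ (h4 : Algebra.trdeg ℂ N = 4) {p q D lam : ℂ[X]} (hp : p.natDegree ≤ 4)
    (hq : q.natDegree ≤ 6) (hdisc : 4 * p ^ 3 + 27 * q ^ 2 ≠ 0)
    (hnt : ∀ α β a b : ℂ, ¬ (p = C α * (C a * X + C b) ^ 4 ∧ q = C β * (C a * X + C b) ^ 6))
    (hD : D ≠ 0) (hlam : lam ≠ 0) {F : Fin 10 → ℂ[X]} (hF6 : F 6 ≠ 0)
    (hc4 : c4 F = C (-48) * lam ^ 4 * D ^ 2 * p) (hc6 : c6 F = C (-864) * lam ^ 6 * D ^ 3 * q)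
    {δ : N} (hδ : Transcendental ℂ δ) {B : N → N → N → ((K →ₐ[ℂ] N) →₀ ℤ)}
    (hB : EquG δ (fun i => aeval δ (F i)) (aeval δ D) B)
    (hN : NegC δ (fun i => aeval δ (F i)) (aeval δ D) B (Rel m K N)) {e X Y X' Y' : N}
    (h : GenC δ (fun i => aeval δ (F i)) (aeval δ D) e X Y)
    (h' : GenC δ (fun i => aeval δ (F i)) (aeval δ D) e X' Y') :
    (72 : ℤ) • (B e X Y - B e X' Y') ∈ Rel m K N := by
  have hinjN : Function.Injective (aeval δ : ℂ[X] →ₐ[ℂ] N) := transcendental_iff_injective.1 hδ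
  refine tside_cubic h4 hp hq hdisc hnt hD hlam hc4 hc6 hδ hN ?_ ?_ h h'
  · exact LineC.of_equ (fun i => aeval_mem _) (fun h0 => hF6 (hinjN (h0.trans (map_zero _).symm)))
      (aeval_mem _) hB
  · exact StarC.of_equ hB fun v hv => Rel.of_stable hv

end

end Vale.Agent.P297.H54
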