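import Vale.Agent.P297.H54.CubPt

/-!
Collinear points of the plane cubic; halving of points.
-/

set_option linter.unusedSectionVars false

open IntermediateField Polynomial WeierstrassCurve WeierstrassCurve.Affine Matrix

namespace Vale.Agent.P297.H54

open Vale.Agent.P297 Vale.Agent.P297.Gen Vale.Agent.P297.H839 Vale.Agent.P297.H600
open Vale.Agent.P297.H729 Vale.Agent.P297.Z3

section

variable {k : Type} [Field k] [CharZero k] [DecidableEq k] {a b : k}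

/-- the doubling formula -/
theorem two_some {x y : k} (h : (wc a b).toAffine.Nonsingular x y) (hy : y ≠ 0) :
    ∃ x' y' h', (2 : ℕ) • Point.some x y h = Point.some x' y' h' ∧
      4 * x' * y ^ 2 = x ^ 4 - 2 * a * x ^ 2 - 8 * b * x + a ^ 2 := by
  have hy' : y ≠ (wc a b).toAffine.negY x y := by
    rw [wc_negY]
    intro h0
    apply hy
    have h1 : (2 : k) * y = 0 := by linear_combination h0
    exact (mul_eq_zero.1 h1).resolve_left two_ne_zero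
  rw [two_nsmul, Point.add_self_of_Y_ne hy']
  refine ⟨_, _, _, rfl, ?_⟩
  rw [Affine.slope_of_Y_ne rfl hy', wc_addX, wc_negY]
  simp only [wc]
  have heq := wc_equation.1 h.1
  have h2 : y - -y = 2 * y := by ring
  rw [h2]
  field_simp
  linear_combination (-32 * x) * heq

/-- **Halving.** -/
theorem exists_half [IsAlgClosed k] (hd : 4 * a ^ 3 + 27 * b ^ 2 ≠ 0)
    (P : (wc a b).toAffine.Point) : ∃ R : (wc a b).toAffine.Point, (2 : ℕ) • R = P := by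
  rcases P with (_ | ⟨x₀, y₀, h₀⟩)
  · exact ⟨0, smul_zero _⟩
  obtain ⟨x, hx⟩ : ∃ x : k, x ^ 4 - 2 * a * x ^ 2 - 8 * b * x + a ^ 2 =
      4 * x₀ * (x ^ 3 + a * x + b) := by
    let q : k[X] := X ^ 4 + (C (-4 * x₀) * X ^ 3 + C (-2 * a) * X ^ 2 + C (-8 * b - 4 * x₀ * a) * X +
      C (a ^ 2 - 4 * x₀ * b))
    have hq : q.degree = 4 := by
      simp only [q]
      compute_degree!
    obtain ⟨x, hx⟩ := IsAlgClosed.exists_root q (by rw [hq]; decide)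
    refine ⟨x, ?_⟩
    have h1 : q.eval x = 0 := hx
    simp only [q, eval_add, eval_mul, eval_pow, eval_X, eval_C] at h1
    linear_combination h1
  obtain ⟨y, hy⟩ := IsAlgClosed.exists_pow_nat_eq (x ^ 3 + a * x + b) (Nat.succ_pos 1)
  have hy' : y ^ 2 = x ^ 3 + a * x + b := hy
  have h : (wc a b).toAffine.Nonsingular x y := wc_nonsing hd hy'
  have hy0 : y ≠ 0 := by
    rintro rfl
    have h1 : x ^ 3 + a * x + b = 0 := by linear_combination -hy'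
    rw [h1, mul_zero] at hx
    have h2 : (3 * x ^ 2 + a) ^ 2 = 0 := by
      linear_combination hx + 8 * x * h1
    have h3 : 3 * x ^ 2 + a = 0 := pow_eq_zero_iff (two_ne_zero) |>.1 h2
    apply hd
    linear_combination (3 * x ^ 2 + 4 * a) * (3 * x ^ 2 + a) * h3 -
      27 * (x ^ 3 + a * x - b) * h1
  obtain ⟨x', y', h', h2P, hx'⟩ := two_some h hy0
  have hxx : x' = x₀ := by
    have h4 : (4 : k) * y ^ 2 ≠ 0 := mul_ne_zero (by norm_num) (pow_ne_zero 2 hy0)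
    apply mul_left_cancel₀ h4
    rw [hy']
    rw [hy'] at hx'
    linear_combination hx' + hx
  have hyy : y' = y₀ ∨ y' = -y₀ := by
    apply sq_eq_sq_iff_eq_or_eq_neg.1
    rw [wc_equation.1 h'.1, wc_equation.1 h₀.1, hxx]
  rcases hyy with hyy | hyy
  · refine ⟨Point.some x y h, ?_⟩
    rw [h2P, Point.some.injEq]
    exact ⟨hxx, hyy⟩
  · refine ⟨-Point.some x y h, ?_⟩
    rw [smul_neg, h2P, Point.neg_some, Point.some.injEq]
    refine ⟨hxx, ?_⟩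
    rw [wc_negY, hyy, neg_neg]

end

section

variable {N : Type} [Field N] [Algebra ℂ N]
variable {δ : N} {f : Fin 10 → N} {A A' : Matrix (Fin 3) (Fin 3) N} {a b : N}
variable [IsAlgClosed N] [DecidableEq N] [CharZero N]

theorem gen_neg' {M : IntermediateField ℂ N} {P : (wc a b).toAffine.Point} (hP : ¬ InF M P) :
    ¬ InF M (-P) := by
  intro h
  apply hP
  rw [← neg_neg P]
  exact h.neg

/-- Three points with sum zero are on a line. -/
theorem Cb.line (C : Cb δ f A A' a b) {P₁ P₂ : (wc a b).toAffine.Point}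
    {M₁ : IntermediateField ℂ N} (hM₁ : Closed M₁) (h01 : cl0 {δ} ≤ M₁)
    (g₁ : ¬ InF (cl0 {δ}) P₁) (m₁ : InF M₁ P₁) (g₂ : ¬ InF M₁ P₂)
    {X₁ Y₁ X₂ Y₂ X₃ Y₃ : N} (H₁ : At A X₁ Y₁ P₁) (H₂ : At A X₂ Y₂ P₂)
    (H₃ : At A X₃ Y₃ (-(P₁ + P₂))) :
    ∃ s t : N, AlgebraicIndependent ℂ ![δ, s, t] ∧ Function.Injective ![X₁, X₂, X₃] ∧
      Y₁ = s * X₁ + t ∧ Y₂ = s * X₂ + t ∧ Y₃ = s * X₃ + t := by
  set κ := cl0 ({δ} : Set N) with hκ
  have hκc : Closed κ := closed_cl0 _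
  have haκ : a ∈ κ := C.mema
  have hbκ : b ∈ κ := C.memb
  obtain ⟨x₁, y₁, h₁, r₁, rfl, hr₁⟩ := H₁
  have hx₁ : x₁ ∉ κ := by
    rwa [inF_iff hκc haκ hbκ] at g₁
  have hx₁M : x₁ ∈ M₁ := by
    rwa [inF_iff hM₁ (h01 haκ) (h01 hbκ)] at m₁
  have hle : clo κ {x₁} ≤ M₁ := clo_single_le hM₁ h01 hx₁M
  have hP₂ : ¬ InF (clo κ {x₁}) P₂ := fun h => g₂ (h.mono hle)
  set M := clo κ {x₁} with hM
  have hMc : Closed M := closed_clo _ _
  have hκM : κ ≤ M := le_clo _ _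
  have hP₁M : InF M (Point.some x₁ y₁ h₁) :=
    (inF_iff hMc (hκM haκ) (hκM hbκ) h₁).2 (mem_clo_self _ _)
  have H₁' : At A X₁ Y₁ (Point.some x₁ y₁ h₁) := ⟨x₁, y₁, h₁, r₁, rfl, hr₁⟩
  have ne₁₂ : ¬ (X₁ = X₂ ∧ Y₁ = Y₂) := by
    rintro ⟨rfl, rfl⟩
    have h1 := H₁'.inj C H₂
    rw [← h1] at hP₂
    exact hP₂ hP₁M
  have ne₁₃ : ¬ (X₁ = X₃ ∧ Y₁ = Y₃) := by
    rintro ⟨rfl, rfl⟩
    have h1 := H₁'.inj C H₃
    apply hP₂
    have h2 : P₂ = -(-(Point.some x₁ y₁ h₁ + P₂)) - Point.some x₁ y₁ h₁ := by abel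
    rw [h2, ← h1]
    exact (hP₁M.neg).sub (hκM haκ) hP₁M
  have H₂' := H₂
  have H₃' := H₃
  obtain ⟨x₂, y₂, h₂, r₂, rfl, hr₂⟩ := H₂
  have hx₂ : x₂ ∉ M := by
    rwa [inF_iff hMc (hκM haκ) (hκM hbκ)] at hP₂
  have ne₂₃ : ¬ (X₂ = X₃ ∧ Y₂ = Y₃) := by
    rintro ⟨rfl, rfl⟩
    have h1 := H₂'.inj C H₃
    have h3 : InF (clo κ {x₂}) (Point.some x₁ y₁ h₁) := by
      have h2 : Point.some x₁ y₁ h₁ =
          -(-(Point.some x₁ y₁ h₁ + Point.some x₂ y₂ h₂)) - Point.some x₂ y₂ h₂ := by abel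
      rw [h2, ← h1]
      have h4 : InF (clo κ {x₂}) (Point.some x₂ y₂ h₂) :=
        (inF_iff (closed_clo _ _) (le_clo _ _ haκ) (le_clo _ _ hbκ) h₂).2 (mem_clo_self _ _)
      exact (h4.neg).sub (le_clo _ _ haκ) h4
    exact hx₂ (exchange hκc ((inF_iff (closed_clo _ _) (le_clo _ _ haκ) (le_clo _ _ hbκ) h₁).1 h3)
      hx₁)
  have hx₁₂ : x₁ ≠ x₂ := by
    rintro rfl
    exact hx₂ (mem_clo_self _ _)
  have heq₁ := wc_equation.1 h₁.1
  have heq₂ := wc_equation.1 h₂.1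
  have hX₁₂ : X₂ - X₁ ≠ 0 := by
    intro h0
    apply hx₂
    refine C.mem_of_X hMc hκM hr₂ heq₂ ?_
    rw [sub_eq_zero.1 h0]
    exact (C.X_mem hκM hr₁ (mem_clo_self _ _)
      (y_mem hMc (hκM haκ) (hκM hbκ) heq₁ (mem_clo_self _ _))).1
  -- the line
  set s : N := (Y₂ - Y₁) / (X₂ - X₁) with hs
  set t : N := Y₁ - s * X₁ with ht
  have hsm : s * (X₂ - X₁) = Y₂ - Y₁ := div_mul_cancel₀ _ hX₁₂
  set c : Fin 3 → N := ![s, -1, t] with hc
  have hcv : ∀ X Y : N, c ⬝ᵥ ![X, Y, 1] = s * X - Y + t := by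
    intro X Y
    simp only [dotProduct, Fin.sum_univ_three]
    change s * X + -1 * Y + t * 1 = _
    ring
  have hc0 : c ≠ 0 := by
    intro h0
    have h1 : (-1 : N) = 0 := congrFun h0 1
    exact one_ne_zero (neg_eq_zero.1 h1)
  have hc₁ : c ⬝ᵥ ![X₁, Y₁, 1] = 0 := by
    rw [hcv, ht]
    ring
  have hc₂ : c ⬝ᵥ ![X₂, Y₂, 1] = 0 := by
    rw [hcv, ht]
    linear_combination hsm
  set d := c ᵥ* A' with hd
  have hd0 : d ≠ 0 := C.row_ne hc0
  have hd₁ := (C.row_iff hr₁ c).1 hc₁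
  have hd₂ := (C.row_iff hr₂ c).1 hc₂
  rw [← hd] at hd₁ hd₂
  have hd10 : d 1 ≠ 0 := by
    intro h0
    rw [h0] at hd₁ hd₂
    have h1 : d 0 * (x₁ - x₂) = 0 := by linear_combination hd₁ - hd₂
    have h2 : d 0 = 0 := (mul_eq_zero.1 h1).resolve_right (sub_ne_zero.2 hx₁₂)
    rw [h2] at hd₁
    apply hd0
    funext i
    fin_cases i
    · exact h2
    · exact h0
    · change d 2 = 0
      linear_combination hd₁
  set l : N := -(d 0 / d 1) with hl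
  have hld : l * d 1 = -d 0 := by
    rw [hl, neg_mul, div_mul_cancel₀ _ hd10]
  -- points on the line
  have hline : ∀ x y : N, d 0 * x + d 1 * y + d 2 = 0 ↔ y = l * (x - x₁) + y₁ := by
    intro x y
    constructor
    · intro h
      apply mul_left_cancel₀ hd10
      linear_combination h - hd₁ + (x₁ - x) * hld
    · rintro rfl
      linear_combination hd₁ + (x - x₁) * hld
  have hy₂ : y₂ = l * (x₂ - x₁) + y₁ := (hline _ _).1 hd₂
  have hslope : (wc a b).toAffine.slope x₁ x₂ y₁ y₂ = l := by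
    rw [wc_slope_of_ne hx₁₂, div_eq_iff (sub_ne_zero.2 hx₁₂), hy₂]
    ring
  have hP₃ : ∃ h₃, -(Point.some x₁ y₁ h₁ + Point.some x₂ y₂ h₂) =
      Point.some (l ^ 2 - x₁ - x₂) (l * (l ^ 2 - x₁ - x₂ - x₁) + y₁) h₃ := by
    have h1 := Point.add_some (W := (wc a b).toAffine) (h₁ := h₁) (h₂ := h₂)
      (fun h => hx₁₂ h.1)
    have h2 : (wc a b).toAffine.Nonsingular (l ^ 2 - x₁ - x₂)
        (l * (l ^ 2 - x₁ - x₂ - x₁) + y₁) := by
      have h3 := (Affine.nonsingular_neg _ _).2 (Affine.nonsingular_add h₁ h₂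
        (fun h => hx₁₂ h.1))
      rw [wc_negY, wc_addY, wc_addX, neg_neg, hslope] at h3
      exact h3
    refine ⟨h2, ?_⟩
    rw [h1, Point.neg_some, Point.some.injEq]
    refine ⟨?_, ?_⟩
    · rw [wc_addX, hslope]
    · rw [wc_negY, wc_addY, hslope, neg_neg]
  obtain ⟨h₃, hP₃⟩ := hP₃
  have hc₃ : c ⬝ᵥ ![X₃, Y₃, 1] = 0 := by
    obtain ⟨x₃, y₃, h₃', r₃, hP₃', hr₃⟩ := H₃
    rw [hP₃] at hP₃'
    obtain ⟨rfl, rfl⟩ := Point.some.inj hP₃'
    rw [C.row_iff hr₃ c, ← hd, hline]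
  have e₁ : Y₁ = s * X₁ + t := by
    rw [ht]
    ring
  have e₂ : Y₂ = s * X₂ + t := by
    rw [hcv] at hc₂
    linear_combination -hc₂
  have e₃ : Y₃ = s * X₃ + t := by
    rw [hcv] at hc₃
    linear_combination -hc₃
  refine ⟨s, t, ?_, ?_, e₁, e₂, e₃⟩
  · -- independence
    obtain ⟨w, hw⟩ := G4.exists_notMem2 C.deg δ x₁ x₂
    have hall : ∀ z, z ∈ cl0 (Set.range ![δ, s, t, w]) := by
      set M' := cl0 (Set.range ![δ, s, t, w]) with hM'
      have hM'c : Closed M' := closed_cl0 _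
      have hδM : δ ∈ M' := subset_cl0 _ ⟨0, rfl⟩
      have hsM : s ∈ M' := subset_cl0 _ ⟨1, rfl⟩
      have htM : t ∈ M' := subset_cl0 _ ⟨2, rfl⟩
      have hwM : w ∈ M' := subset_cl0 _ ⟨3, rfl⟩
      have hκM' : κ ≤ M' := cl0_le hM'c (Set.singleton_subset_iff.2 hδM)
      have hcM : ∀ i, c i ∈ M' := by
        intro i
        fin_cases i
        · exact hsM
        · exact neg_mem (one_mem M')
        · exact htM
      have k1 : x₁ ∈ M' := C.row hM'c hκM' hr₁ heq₁ c hcM hc0 hc₁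
      have k2 : x₂ ∈ M' := C.row hM'c hκM' hr₂ heq₂ c hcM hc0 hc₂
      exact fun z => G4.full C.deg C.tr0 hx₁ hx₂ hw hM'c hδM k1 k2 hwM z
    have hind := G4.ind_of_all C.deg hall
    have h1 := hind.comp ![0, 1, 2] (by decide)
    have h2 : (![δ, s, t, w] ∘ ![0, 1, 2] : Fin 3 → N) = ![δ, s, t] := by
      funext i
      fin_cases i <;> rfl
    rwa [h2] at h1
  · -- injectivity
    have k₁₂ : X₁ ≠ X₂ := fun h => hX₁₂ (by rw [h, sub_self])
    have k₁₃ : X₁ ≠ X₃ := fun h => ne₁₃ ⟨h, by rw [e₁, e₃, h]⟩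
    have k₂₃ : X₂ ≠ X₃ := fun h => ne₂₃ ⟨h, by rw [e₂, e₃, h]⟩
    intro i j hij
    fin_cases i <;> fin_cases j
    · rfl
    · exact absurd hij k₁₂
    · exact absurd hij k₁₃
    · exact absurd hij k₁₂.symm
    · rfl
    · exact absurd hij k₂₃
    · exact absurd hij k₁₃.symm
    · exact absurd hij k₂₃.symm
    · rfl

end

end Vale.Agent.P297.H54
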