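import Vale.Agent.P297.H572.Z3.Main
import Vale.Agent.P297.H637.T8Poly

/-!
Points of a plane cubic over the closure of `ℂ(δ)` and points of its Weierstrass form, in an
algebraically closed field of transcendence degree four.
-/

set_option linter.unusedSectionVars false

open IntermediateField Polynomial WeierstrassCurve WeierstrassCurve.Affine Matrix

namespace Vale.Agent.P297.H54

open Vale.Agent.P297 Vale.Agent.P297.Gen Vale.Agent.P297.H839 Vale.Agent.P297.H600
open Vale.Agent.P297.H729 Vale.Agent.P297.Z3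

section

variable {N : Type} [Field N] [Algebra ℂ N]

/-- The data: a plane cubic `f` over the closure of `ℂ(δ)`, and a linear isomorphism with the
Weierstrass form. -/
structure Cb (δ : N) (f : Fin 10 → N) (A A' : Matrix (Fin 3) (Fin 3) N) (a b : N) : Prop where
  deg : Algebra.trdeg ℂ N = 4
  tr0 : Transcendental ℂ δ
  fixf : ∀ g : N ≃ₐ[ℂ] N, g δ = δ → ∀ i, g (f i) = f i
  fixa : ∀ g : N ≃ₐ[ℂ] N, g δ = δ → g a = a
  fixb : ∀ g : N ≃ₐ[ℂ] N, g δ = δ → g b = b
  mema : a ∈ cl0 {δ}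
  memb : b ∈ cl0 {δ}
  memA : ∀ i j, A i j ∈ cl0 {δ}
  memA' : ∀ i j, A' i j ∈ cl0 {δ}
  mul : A * A' = 1
  mul' : A' * A = 1
  tr : ∀ v, tv (wf a b) (A.mulVec v) = A.det * tv f v
  disc : 4 * a ^ 3 + 27 * b ^ 2 ≠ 0

variable {δ : N} {f : Fin 10 → N} {A A' : Matrix (Fin 3) (Fin 3) N} {a b : N}

/-- The point `(X, Y)` of the plane cubic corresponds to the point `P`. -/
def At (A : Matrix (Fin 3) (Fin 3) N) (X Y : N) (P : (wc a b).toAffine.Point) : Prop :=
  ∃ x y h r, P = Point.some x y h ∧ A.mulVec ![X, Y, 1] = ![r * x, r * y, r]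

theorem Cb.inv (C : Cb δ f A A' a b) (v : Fin 3 → N) : A'.mulVec (A.mulVec v) = v := by
  rw [mulVec_mulVec, C.mul', one_mulVec]

theorem Cb.inv' (C : Cb δ f A A' a b) (v : Fin 3 → N) : A.mulVec (A'.mulVec v) = v := by
  rw [mulVec_mulVec, C.mul, one_mulVec]

theorem Cb.det_ne (C : Cb δ f A A' a b) : A.det ≠ 0 := by
  intro h
  have h1 := congrArg Matrix.det C.mul
  rw [det_mul, h, zero_mul, det_one] at h1
  exact zero_ne_one h1

theorem Cb.r_ne (C : Cb δ f A A' a b) {X Y x y r : N}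
    (h : A.mulVec ![X, Y, 1] = ![r * x, r * y, r]) : r ≠ 0 := by
  rintro rfl
  have h1 := C.inv ![X, Y, 1]
  rw [h, zero_mul, zero_mul] at h1
  have h2 : (![0, 0, 0] : Fin 3 → N) = 0 := by
    funext i
    fin_cases i <;> rfl
  rw [h2, mulVec_zero] at h1
  have h3 := congrFun h1 2
  exact zero_ne_one h3

theorem At.uniq (C : Cb δ f A A' a b) {X Y X' Y' : N}
    {P : (wc a b).toAffine.Point} (h : At A X Y P) (h' : At A X' Y' P) : X = X' ∧ Y = Y' := by
  obtain ⟨x, y, hxy, r, hP, hr⟩ := h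
  obtain ⟨x', y', hxy', r', hP', hr'⟩ := h'
  rw [hP] at hP'
  obtain ⟨rfl, rfl⟩ := Point.some.inj hP'
  have h2 : A.mulVec (r' • ![X, Y, 1]) = A.mulVec (r • ![X', Y', 1]) := by
    rw [mulVec_smul, mulVec_smul, hr, hr']
    funext i
    fin_cases i
    · change r' * (r * x) = r * (r' * x)
      ring
    · change r' * (r * y) = r * (r' * y)
      ring
    · change r' * r = r * r'
      ring
  have h3 := congrArg A'.mulVec h2
  rw [C.inv, C.inv] at h3
  have h4 : r' * 1 = r * 1 := congrFun h3 2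
  rw [mul_one, mul_one] at h4
  subst h4
  have hr0 := C.r_ne hr
  exact ⟨mul_left_cancel₀ hr0 (congrFun h3 0), mul_left_cancel₀ hr0 (congrFun h3 1)⟩

theorem At.inj (C : Cb δ f A A' a b) {X Y : N}
    {P P' : (wc a b).toAffine.Point} (h : At A X Y P) (h' : At A X Y P') : P = P' := by
  obtain ⟨x, y, hxy, r, hP, hr⟩ := h
  obtain ⟨x', y', hxy', r', hP', hr'⟩ := h'
  have hr0 := C.r_ne hr
  rw [hr] at hr'
  have h2 : r = r' := congrFun hr' 2
  subst h2
  have h3 : x = x' := mul_left_cancel₀ hr0 (congrFun hr' 0)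
  have h4 : y = y' := mul_left_cancel₀ hr0 (congrFun hr' 1)
  subst h3 h4
  rw [hP, hP']

theorem Cb.row_iff (C : Cb δ f A A' a b) {X Y x y r : N}
    (h : A.mulVec ![X, Y, 1] = ![r * x, r * y, r]) (c : Fin 3 → N) :
    c ⬝ᵥ ![X, Y, 1] = 0 ↔ (c ᵥ* A') 0 * x + (c ᵥ* A') 1 * y + (c ᵥ* A') 2 = 0 := by
  have hr0 := C.r_ne h
  have h1 : c ⬝ᵥ ![X, Y, 1] =
      r * ((c ᵥ* A') 0 * x + (c ᵥ* A') 1 * y + (c ᵥ* A') 2) := by
    rw [← C.inv ![X, Y, 1], dotProduct_mulVec, h]
    simp only [dotProduct, Fin.sum_univ_three]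
    change (c ᵥ* A') 0 * (r * x) + (c ᵥ* A') 1 * (r * y) + (c ᵥ* A') 2 * r = _
    ring
  rw [h1]
  constructor
  · intro h2
    exact (mul_eq_zero.1 h2).resolve_left hr0
  · intro h2
    rw [h2, mul_zero]

theorem Cb.row_ne (C : Cb δ f A A' a b) {c : Fin 3 → N} (hc : c ≠ 0) : c ᵥ* A' ≠ 0 := by
  intro h5
  have h6 : c ᵥ* (A' * A) = 0 := by
    rw [← vecMul_vecMul, h5, zero_vecMul]
  rw [C.mul', vecMul_one] at h6
  exact hc h6

/-- a linear relation for `(X, Y)` gives a linear relation for the point -/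
theorem Cb.row (C : Cb δ f A A' a b) {M : IntermediateField ℂ N} (hM : Closed M)
    (hκ : cl0 {δ} ≤ M) {X Y x y r : N}
    (h : A.mulVec ![X, Y, 1] = ![r * x, r * y, r]) (hxy : y ^ 2 = x ^ 3 + a * x + b)
    (c : Fin 3 → N) (hc : ∀ i, c i ∈ M) (hc0 : c ≠ 0) (hcv : c ⬝ᵥ ![X, Y, 1] = 0) : x ∈ M := by
  have hd : ∀ i, (c ᵥ* A') i ∈ M := by
    intro i
    simp only [vecMul, dotProduct]
    exact sum_mem fun j _ => mul_mem (hc j) (hκ (C.memA' j i))
  have h2 := (C.row_iff h c).1 hcv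
  refine line_mem hM (hκ C.mema) (hκ C.memb) hxy (hd 0) (hd 1) (hd 2) ?_ h2
  by_contra hcon
  rw [not_or, not_not, not_not] at hcon
  obtain ⟨h3, h4⟩ := hcon
  rw [h3, h4, zero_mul, zero_mul, zero_add, zero_add] at h2
  apply C.row_ne hc0
  funext i
  fin_cases i
  · exact h3
  · exact h4
  · exact h2

theorem Cb.mem_of_X (C : Cb δ f A A' a b) {M : IntermediateField ℂ N} (hM : Closed M)
    (hκ : cl0 {δ} ≤ M) {X Y x y r : N}
    (h : A.mulVec ![X, Y, 1] = ![r * x, r * y, r]) (hxy : y ^ 2 = x ^ 3 + a * x + b)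
    (hX : X ∈ M) : x ∈ M := by
  refine C.row hM hκ h hxy ![-1, 0, X] ?_ ?_ ?_
  · intro i
    fin_cases i
    · exact neg_mem (one_mem M)
    · exact zero_mem M
    · exact hX
  · intro h0
    have h1 : (-1 : N) = 0 := congrFun h0 0
    exact one_ne_zero (neg_eq_zero.1 h1)
  · simp only [dotProduct, Fin.sum_univ_three]
    change -1 * X + 0 * Y + X * 1 = 0
    ring

theorem Cb.X_mem (C : Cb δ f A A' a b) {M : IntermediateField ℂ N}
    (hκ : cl0 {δ} ≤ M) {X Y x y r : N}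
    (h : A.mulVec ![X, Y, 1] = ![r * x, r * y, r]) (hx : x ∈ M) (hy : y ∈ M) :
    X ∈ M ∧ Y ∈ M := by
  have h1 := C.inv ![X, Y, 1]
  have h2 : A'.mulVec (![r * x, r * y, r]) = r • A'.mulVec ![x, y, 1] := by
    rw [← mulVec_smul]
    congr 1
    funext i
    fin_cases i
    · rfl
    · rfl
    · exact (mul_one r).symm
  rw [h, h2] at h1
  have hw : ∀ i, A'.mulVec ![x, y, 1] i ∈ M := by
    intro i
    simp only [mulVec, dotProduct]
    refine sum_mem fun j _ => mul_mem (hκ (C.memA' i j)) ?_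
    fin_cases j
    · exact hx
    · exact hy
    · exact one_mem M
  have h3 : r * A'.mulVec ![x, y, 1] 2 = 1 := congrFun h1 2
  have hw0 : A'.mulVec ![x, y, 1] 2 ≠ 0 := right_ne_zero_of_mul (h3 ▸ one_ne_zero)
  have hr : r ∈ M := by
    rw [eq_div_of_mul_eq hw0 h3]
    exact div_mem (one_mem M) (hw 2)
  refine ⟨?_, ?_⟩
  · have h4 : r * A'.mulVec ![x, y, 1] 0 = X := congrFun h1 0
    rw [← h4]
    exact mul_mem hr (hw 0)
  · have h4 : r * A'.mulVec ![x, y, 1] 1 = Y := congrFun h1 1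
    rw [← h4]
    exact mul_mem hr (hw 1)

variable [IsAlgClosed N]

/-- every generic point of the cubic corresponds to a point -/
theorem Cb.exists_at [CharZero N] (C : Cb δ f A A' a b) {X Y : N}
    (h0 : tv f ![X, Y, 1] = 0) (hX : X ∉ cl0 {δ}) :
    ∃ P : (wc a b).toAffine.Point, At A X Y P := by
  have h1 := C.tr ![X, Y, 1]
  rw [h0, mul_zero, vec_eta (A.mulVec ![X, Y, 1]), tv_wf] at h1
  have hz : A.mulVec ![X, Y, 1] 2 ≠ 0 := by
    intro h0
    rw [h0] at h1
    have h2 : A.mulVec ![X, Y, 1] 0 = 0 := by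
      have h3 : A.mulVec ![X, Y, 1] 0 ^ 3 = 0 := by linear_combination -h1
      exact pow_eq_zero_iff (three_ne_zero) |>.1 h3
    have h3 := C.inv ![X, Y, 1]
    rw [vec_eta (A.mulVec ![X, Y, 1]), h0, h2] at h3
    set w := A.mulVec ![X, Y, 1] 1 with hw
    have h5 : ∀ i, A' i 1 * w = ![X, Y, 1] i := by
      intro i
      rw [← h3]
      simp only [mulVec, dotProduct, Fin.sum_univ_three]
      change _ = A' i 0 * 0 + A' i 1 * w + A' i 2 * 0
      ring
    have h6 : A' 2 1 * w = 1 := h5 2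
    have h7 : A' 2 1 ≠ 0 := left_ne_zero_of_mul (h6 ▸ one_ne_zero)
    have h8 : w ∈ cl0 {δ} := by
      have h9 : w = 1 / A' 2 1 := by
        rw [eq_div_iff h7, mul_comm]
        exact h6
      rw [h9]
      exact div_mem (one_mem _) (C.memA' 2 1)
    apply hX
    have h9 : A' 0 1 * w = X := h5 0
    rw [← h9]
    exact mul_mem (C.memA' 0 1) h8
  set p := A.mulVec ![X, Y, 1] 0 with hp
  set q := A.mulVec ![X, Y, 1] 1 with hq
  set z := A.mulVec ![X, Y, 1] 2 with hz'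
  have heq : (q / z) ^ 2 = (p / z) ^ 3 + a * (p / z) + b := by
    field_simp
    linear_combination h1
  refine ⟨Point.some (p / z) (q / z) (wc_nonsing C.disc heq), p / z, q / z,
    wc_nonsing C.disc heq, z, rfl, ?_⟩
  rw [vec_eta (A.mulVec ![X, Y, 1]), ← hp, ← hq, ← hz', mul_div_cancel₀ _ hz,
    mul_div_cancel₀ _ hz]

/-- every generic point corresponds to a point of the cubic -/
theorem Cb.at_exists [CharZero N] (C : Cb δ f A A' a b) {P : (wc a b).toAffine.Point}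
    (hP : ¬ InF (cl0 {δ}) P) : ∃ X Y : N, At A X Y P := by
  rcases P with (_ | ⟨x, y, h⟩)
  · exact absurd (inF_zero _) hP
  rw [inF_iff (closed_cl0 _) C.mema C.memb] at hP
  set w := A'.mulVec ![x, y, 1] with hw
  have hw0 : w 2 ≠ 0 := by
    intro h0
    have h1 : A' 2 0 * x + A' 2 1 * y + A' 2 2 = 0 := by
      rw [← h0, hw]
      simp only [mulVec, dotProduct, Fin.sum_univ_three]
      change _ = A' 2 0 * x + A' 2 1 * y + A' 2 2 * 1
      ring
    apply hP
    refine line_mem (closed_cl0 _) C.mema C.memb (wc_equation.1 h.1) (C.memA' 2 0)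
      (C.memA' 2 1) (C.memA' 2 2) ?_ h1
    by_contra hcon
    rw [not_or, not_not, not_not] at hcon
    obtain ⟨h3, h4⟩ := hcon
    rw [h3, h4, zero_mul, zero_mul, zero_add, zero_add] at h1
    have h5 := congrFun (congrFun C.mul' 2) 2
    rw [Matrix.mul_apply, Fin.sum_univ_three, h3, h4, h1, Matrix.one_apply_eq] at h5
    simp at h5
  refine ⟨w 0 / w 2, w 1 / w 2, x, y, h, (w 2)⁻¹, rfl, ?_⟩
  have h1 : (![w 0 / w 2, w 1 / w 2, 1] : Fin 3 → N) = (w 2)⁻¹ • w := by
    funext i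
    fin_cases i
    · change w 0 / w 2 = (w 2)⁻¹ * w 0
      rw [div_eq_inv_mul]
    · change w 1 / w 2 = (w 2)⁻¹ * w 1
      rw [div_eq_inv_mul]
    · change 1 = (w 2)⁻¹ * w 2
      rw [inv_mul_cancel₀ hw0]
  rw [h1, mulVec_smul, hw, C.inv']
  funext i
  fin_cases i
  · rfl
  · rfl
  · exact mul_one _

/-- the point is on the cubic -/
theorem At.on (C : Cb δ f A A' a b) {X Y : N} {P : (wc a b).toAffine.Point} (h : At A X Y P) :
    tv f ![X, Y, 1] = 0 := by
  obtain ⟨x, y, hxy, r, rfl, hr⟩ := h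
  have h1 := C.tr ![X, Y, 1]
  have h2 := wc_equation.1 hxy.1
  rw [hr, tv_wf] at h1
  have h3 : A.det * tv f ![X, Y, 1] = 0 := by
    rw [← h1]
    linear_combination r ^ 3 * h2
  exact (mul_eq_zero.1 h3).resolve_left C.det_ne

theorem At.generic (C : Cb δ f A A' a b) {X Y : N}
    {P : (wc a b).toAffine.Point} (h : At A X Y P) (hP : ¬ InF (cl0 {δ}) P) :
    X ∉ cl0 {δ} := by
  intro hX
  obtain ⟨x, y, hxy, r, rfl, hr⟩ := h
  apply hP
  rw [inF_iff (closed_cl0 _) C.mema C.memb]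
  exact C.mem_of_X (closed_cl0 _) le_rfl hr (wc_equation.1 hxy.1) hX

theorem At.gen' (C : Cb δ f A A' a b) {X Y : N}
    {P : (wc a b).toAffine.Point} (h : At A X Y P) (hX : X ∉ cl0 {δ}) :
    ¬ InF (cl0 {δ}) P := by
  intro hP
  obtain ⟨x, y, hxy, r, rfl, hr⟩ := h
  obtain ⟨h1, h2⟩ := hP x y hxy rfl
  exact hX (C.X_mem le_rfl hr h1 h2).1

theorem map_kap' {g : N ≃ₐ[ℂ] N} (hg : g δ = δ) {z : N} (hz : z ∈ cl0 {δ}) : g z ∈ cl0 {δ} :=
  map_kappa (Or.inl hg) hz

theorem symm_fix {g : N ≃ₐ[ℂ] N} (hg : g δ = δ) : g.symm δ = δ := by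
  rw [AlgEquiv.symm_apply_eq, hg]

theorem map_notMem {g : N ≃ₐ[ℂ] N} (hg : g δ = δ) {z : N} (hz : z ∉ cl0 {δ}) :
    g z ∉ cl0 {δ} := by
  intro h
  apply hz
  have h1 := map_kap' (symm_fix hg) h
  rwa [AlgEquiv.symm_apply_apply] at h1

/-- the action of automorphisms on the points -/
theorem Cb.at_act [CharZero N] [DecidableEq N] (C : Cb δ f A A' a b)
    (g : N ≃ₐ[ℂ] N) (hg : g δ = δ) :
    ∃ t : (wc a b).toAffine.Point, (3 : ℕ) • t = 0 ∧ ∀ (X Y : N)
      (P : (wc a b).toAffine.Point), ¬ InF (cl0 {δ}) P →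
      At A X Y P → At A (g X) (g Y)
        (gfun (g : N →+* N) ⟨C.fixa g hg, C.fixb g hg⟩ P + t) := by
  set gA : Matrix (Fin 3) (Fin 3) N := A.map g with hgA
  set gA' : Matrix (Fin 3) (Fin 3) N := A'.map g with hgA'
  have hmul : gA * gA' = 1 := by
    have h1 := congrArg (fun M : Matrix (Fin 3) (Fin 3) N => M.map (g : N →+* N)) C.mul
    simp only [Matrix.map_mul] at h1
    exact h1.trans (Matrix.map_one _ (map_zero g) (map_one g))
  have hmul' : gA' * gA = 1 := by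
    have h1 := congrArg (fun M : Matrix (Fin 3) (Fin 3) N => M.map (g : N →+* N)) C.mul'
    simp only [Matrix.map_mul] at h1
    exact h1.trans (Matrix.map_one _ (map_zero g) (map_one g))
  have hgv : ∀ v : Fin 3 → N, gA.mulVec (fun i => g (v i)) = fun i => g (A.mulVec v i) := by
    intro v
    funext i
    simp only [mulVec, dotProduct, Fin.sum_univ_three, map_add, map_mul]
    rfl
  have hdet : gA.det = g A.det := (RingHom.map_det (g : N →+* N) A).symm
  have htr : ∀ v, tv (wf a b) (gA.mulVec v) = gA.det * tv f v := by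
    intro v
    have h1 := congrArg g (C.tr (fun i => g.symm (v i)))
    have h2 : (fun i => g (g.symm (v i))) = v := by
      funext i
      exact g.apply_symm_apply (v i)
    have h3 : ∀ w : Fin 3 → N, g (tv (wf a b) w) = tv (wf a b) (fun i => g (w i)) := by
      intro w
      rw [vec_eta w, tv_wf, vec_eta (fun i => g _), tv_wf]
      simp only [map_sub, map_mul, map_pow, C.fixa g hg, C.fixb g hg]
      rfl
    have h4 : ∀ w : Fin 3 → N, g (tv f w) = tv f (fun i => g (w i)) := by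
      intro w
      unfold tv tc
      simp only [map_add, map_mul, map_pow, C.fixf g hg]
    rw [h3, ← hgv, h2, map_mul, h4, h2, ← hdet] at h1
    exact h1
  have hgdet : gA.det ≠ 0 := by
    rw [hdet]
    exact (map_ne_zero g).2 C.det_ne
  set B : Matrix (Fin 3) (Fin 3) N := A * gA' with hB
  have hBdet : B.det * gA.det = A.det := by
    rw [← det_mul, hB, Matrix.mul_assoc, hmul', Matrix.mul_one]
  have hBdet0 : B.det ≠ 0 := by
    intro h0
    rw [h0, zero_mul] at hBdet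
    exact C.det_ne hBdet.symm
  have hBtr : ∀ v : Fin 3 → N, tv (wf a b) (B.mulVec v) = B.det * tv (wf a b) v := by
    intro v
    have h1 := C.tr (gA'.mulVec v)
    have h2 := htr (gA'.mulVec v)
    rw [mulVec_mulVec, ← hB] at h1
    rw [mulVec_mulVec, hmul, one_mulVec] at h2
    rw [h1, h2, ← hBdet]
    ring
  obtain ⟨t, ht, hact⟩ := stmtLin N a b B C.disc hBdet0 hBtr
  refine ⟨t, ht, fun X Y P hP hat => ?_⟩
  have hat0 := hat
  obtain ⟨x, y, hxy, r, rfl, hr⟩ := hat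
  have hv : (fun i => g (![X, Y, 1] i)) = ![g X, g Y, 1] := by
    funext j
    fin_cases j
    · rfl
    · rfl
    · exact map_one g
  have h2 : A.mulVec ![g X, g Y, 1] = g r • B.mulVec ![g x, g y, 1] := by
    rw [← hv, ← mulVec_smul]
    have h3 : g r • ![g x, g y, 1] = gA.mulVec (fun i => g (![X, Y, 1] i)) := by
      rw [hgv, hr]
      funext i
      fin_cases i
      · exact (map_mul g r x).symm
      · exact (map_mul g r y).symm
      · exact mul_one _
    rw [h3, mulVec_mulVec, hB, Matrix.mul_assoc, hmul', Matrix.mul_one]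
  have hgX : g X ∉ cl0 {δ} := map_notMem hg (hat0.generic C hP)
  have hon : tv f ![g X, g Y, 1] = 0 := by
    have h3 := congrArg g (hat0.on C)
    rw [map_zero] at h3
    rw [← h3, ← hv]
    unfold tv tc
    simp only [map_add, map_mul, map_pow, C.fixf g hg]
  obtain ⟨P', hP'⟩ := C.exists_at hon hgX
  obtain ⟨x', y', hxy', r', rfl, hr'⟩ := hP'
  have hr0' := C.r_ne hr'
  rw [h2] at hr'
  have h5 : g r * B.mulVec ![g x, g y, 1] 2 = r' := congrFun hr' 2
  have h6 : B.mulVec ![g x, g y, 1] 2 ≠ 0 := right_ne_zero_of_mul (h5 ▸ hr0')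
  obtain ⟨h', heq⟩ := hact (g x) (g y) ((gfun_aux (g : N →+* N) ⟨C.fixa g hg, C.fixb g hg⟩ hxy)) h6
  refine ⟨_, _, h', g r * B.mulVec ![g x, g y, 1] 2, heq.symm, ?_⟩
  rw [h2]
  funext i
  fin_cases i
  · change g r * B.mulVec ![g x, g y, 1] 0 = _
    change _ = g r * B.mulVec ![g x, g y, 1] 2 * (B.mulVec ![g x, g y, 1] 0 /
      B.mulVec ![g x, g y, 1] 2)
    field_simp
  · change g r * B.mulVec ![g x, g y, 1] 1 = _
    change _ = g r * B.mulVec ![g x, g y, 1] 2 * (B.mulVec ![g x, g y, 1] 1 /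
      B.mulVec ![g x, g y, 1] 2)
    field_simp
  · rfl

end

end Vale.Agent.P297.H54
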