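import Vale.Agent.P297.H54.CubLine

/-!
The other side for a family of plane cubics over the line with a rational quadratic twist.
-/

set_option linter.unusedSectionVars false

open IntermediateField Polynomial WeierstrassCurve WeierstrassCurve.Affine Matrix

namespace Vale.Agent.P297.H54

open Vale.Agent.P297 Vale.Agent.P297.Gen Vale.Agent.P297.H839 Vale.Agent.P297.H600
open Vale.Agent.P297.H729 Vale.Agent.P297.Z3 Vale.Agent.P297.G4

section

variable {N : Type} [Field N] [Algebra ℂ N]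

/-- The twist: `e² ∈ ℂ(δ)`, and a quartic over `ℂ(δ)` with rational total space. -/
structure Tw (δ e : N) (d : Fin 5 → N) (a b : N) : Prop where
  e0 : e ≠ 0
  esq : ∀ g : N ≃ₐ[ℂ] N, g δ = δ → g e = e ∨ g e = -e
  eme : e ∈ cl0 {δ}
  memd : ∀ i, d i ∈ cl0 {δ}
  fixd : ∀ g : N ≃ₐ[ℂ] N, g δ = δ → ∀ i, g (d i) = d i
  discd : 4 * qI d ^ 3 ≠ qJ d ^ 2
  ha : a = e ^ 4 * (-qI d / 3)
  hb : b = e ^ 6 * (-qJ d / 27)
  rat : ∀ x y t₁ t₂ : N, x ∉ cl0 {δ} → t₁ ∉ clo (cl0 {δ}) {x} →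
    t₂ ∉ clo (clo (cl0 {δ}) {x}) {t₁} → y ^ 2 = qv d x →
    IsRational (IntermediateField.adjoin ℂ ({δ, x, y, t₁, t₂} : Set N))

theorem tw_congr {k : Type} [Field k] [CharZero k] {a b a' b' r r' : k} (h : r' = r)
    (hr : r ≠ 0) (ha : a = r ^ 4 * a') (hb : b = r ^ 6 * b') (hr' : r' ≠ 0)
    (ha' : a = r' ^ 4 * a') (hb' : b = r' ^ 6 * b') (P : (wc a b).toAffine.Point) :
    G4.tw hr' ha' hb' P = G4.tw hr ha hb P := by
  subst h
  rfl

variable {δ e : N} {f : Fin 10 → N} {A A' : Matrix (Fin 3) (Fin 3) N} {a b : N}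
variable {d : Fin 5 → N}
variable [IsAlgClosed N] [DecidableEq N] [CharZero N]

theorem Tw.notMem (T : Tw δ e d a b) {M : IntermediateField ℂ N} (hM : cl0 {δ} ≤ M)
    {P : (wc a b).toAffine.Point} (hP : ¬ InF M P) : ¬ InF M (G4.tw T.e0 T.ha T.hb P) := by
  intro h
  apply hP
  intro x y hxy h0
  subst h0
  have h1 := h _ _ _ (tw_some T.e0 T.ha T.hb hxy (tw_aux T.e0 T.ha T.hb hxy))
  have hr := T.e0
  have hrm := hM T.eme
  refine ⟨?_, ?_⟩
  · have h3 := mul_mem h1.1 (pow_mem hrm 2)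
    rwa [div_mul_cancel₀ _ (pow_ne_zero 2 hr)] at h3
  · have h3 := mul_mem h1.2 (pow_mem hrm 3)
    rwa [div_mul_cancel₀ _ (pow_ne_zero 3 hr)] at h3

/-- The field of definition of a point of the twist. -/
theorem Tw.field (T : Tw δ e d a b) (C : Cb δ f A A' a b) {P : (wc a b).toAffine.Point}
    (hP : ¬ InF (cl0 {δ}) P) :
    ∃ L : IntermediateField ℂ N, IsRational L ∧ Algebra.IsAlgebraic L N ∧ δ ∈ L ∧
      ∀ g : N ≃ₐ[ℂ] N, (∀ x ∈ L, g x = x) → ∀ hg : g δ = δ,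
        ∃ U : (wc a b).toAffine.Point, (2 : ℕ) • U = 0 ∧
          ((g e = e ∧ gfun (g : N →+* N) ⟨C.fixa g hg, C.fixb g hg⟩ P = P + U) ∨
            (g e = -e ∧ gfun (g : N →+* N) ⟨C.fixa g hg, C.fixb g hg⟩ P = -P + U)) := by
  have hκ := closed_cl0 ({δ} : Set N)
  have had : -qI d / 3 ∈ cl0 {δ} := a_mem T.memd
  have hbd : -qJ d / 27 ∈ cl0 {δ} := b_mem T.memd
  obtain ⟨ε, hε⟩ := J.exists_root T.discd
  have hεm : ε ∈ cl0 {δ} := root_mem hκ T.memd (coeff_ne T.discd) hε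
  obtain ⟨Q, hQ⟩ : ∃ Q : (Wq d).Point, Q = G4.tw T.e0 T.ha T.hb P := ⟨_, rfl⟩
  have hQn : ¬ InF (cl0 {δ}) Q := by
    rw [hQ]
    exact T.notMem le_rfl hP
  have hfin : Fin' d ε Q := gen_fin T.memd hκ hεm hQn
  have hXm : aX d ε Q ∉ cl0 {δ} := aX_notMem T.discd T.memd hκ hεm hε hQn
  obtain ⟨t₁, ht₁⟩ := exists_notMem1 C.deg δ (aX d ε Q)
  obtain ⟨t₂, ht₂⟩ := exists_notMem2 C.deg δ (aX d ε Q) t₁
  refine ⟨IntermediateField.adjoin ℂ ({δ, aX d ε Q, aY d ε Q, t₁, t₂} : Set N),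
    T.rat _ _ _ _ hXm ht₁ ht₂ (hfin.eqn hε), ⟨fun z => mem_cl0.1 ?_⟩,
    IntermediateField.subset_adjoin _ _ (by simp), fun g hg' hg => ?_⟩
  · exact full C.deg C.tr0 hXm ht₁ ht₂ (closed_cl0 _) (subset_cl0 _ (by simp))
      (subset_cl0 _ (by simp)) (subset_cl0 _ (by simp)) (subset_cl0 _ (by simp)) z
  · have hX : g (aX d ε Q) = aX d ε Q := hg' _ (IntermediateField.subset_adjoin _ _ (by simp))
    have hY : g (aY d ε Q) = aY d ε Q := hg' _ (IntermediateField.subset_adjoin _ _ (by simp))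
    have hgε : qv d (g ε) = 0 := J.map_root (J.rh g) (T.fixd g hg) hε
    have hgεm : g ε ∈ cl0 {δ} := root_mem hκ T.memd (coeff_ne T.discd) hgε
    have hfin' : Fin' d (g ε) (gfun (J.rh g) (J.fix_ab (J.rh g) (T.fixd g hg)) Q) :=
      J.map_fin (J.rh g) (T.fixd g hg) hfin
    have hX' : aX d (g ε) (gfun (J.rh g) (J.fix_ab (J.rh g) (T.fixd g hg)) Q) =
        aX d ε Q := (J.map_aX (J.rh g) (T.fixd g hg) ε Q).symm.trans hX
    have hY' : aY d (g ε) (gfun (J.rh g) (J.fix_ab (J.rh g) (T.fixd g hg)) Q) =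
        aY d ε Q := (J.map_aY (J.rh g) (T.fixd g hg) ε Q).symm.trans hY
    obtain ⟨T', hT', hgT⟩ : ∃ T' : (Wq d).Point, (2 : ℕ) • T' = 0 ∧
        gfun (J.rh g) (J.fix_ab (J.rh g) (T.fixd g hg)) Q = Q + T' := by
      by_cases hεε : ε = g ε
      · refine ⟨0, smul_zero _, ?_⟩
        rw [add_zero]
        rw [← hεε] at hfin' hX' hY'
        exact hfin'.inj T.discd hε hfin hX' hY'
      · refine ⟨tor d ε (g ε), two_tor T.discd hε hgε hεε, ?_⟩
        obtain ⟨h1, h2, h3⟩ := change T.discd hε hgε hεε hfin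
          (fun h0 => hXm (by rw [h0]; exact hgεm))
        exact hfin'.inj T.discd hgε h1 (hX'.trans h2.symm) (hY'.trans h3.symm)
    obtain ⟨U, hU⟩ : ∃ U, G4.tw T.e0 T.ha T.hb U = T' := tw_surjective T.e0 T.ha T.hb T'
    have h2U : (2 : ℕ) • U = 0 := by
      apply tw_injective T.e0 T.ha T.hb
      rw [two_nsmul, tw_add, hU, ← two_nsmul, hT']
      rfl
    refine ⟨U, h2U, ?_⟩
    have hge : (g : N →+* N) e ≠ 0 := (map_ne_zero (g : N →+* N)).2 T.e0
    have hgI : (g : N →+* N) (-qI d / 3) = -qI d / 3 := (J.fix_ab (J.rh g) (T.fixd g hg)).1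
    have hgJ : (g : N →+* N) (-qJ d / 27) = -qJ d / 27 := (J.fix_ab (J.rh g) (T.fixd g hg)).2
    have hga : a = (g : N →+* N) e ^ 4 * (-qI d / 3) := by
      have h1 := congrArg (g : N →+* N) T.ha
      rw [map_mul, map_pow, hgI] at h1
      rw [← h1]
      exact (C.fixa g hg).symm
    have hgb : b = (g : N →+* N) e ^ 6 * (-qJ d / 27) := by
      have h1 := congrArg (g : N →+* N) T.hb
      rw [map_mul, map_pow, hgJ] at h1
      rw [← h1]
      exact (C.fixb g hg).symm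
    have h3 := gfun_tw T.e0 T.ha T.hb (g : N →+* N) ⟨C.fixa g hg, C.fixb g hg⟩ ⟨hgI, hgJ⟩
      hge hga hgb P
    have h4 : gfun (g : N →+* N) ⟨hgI, hgJ⟩ (G4.tw T.e0 T.ha T.hb P) =
        G4.tw T.e0 T.ha T.hb (P + U) := by
      rw [tw_add, hU, ← hQ]
      exact hgT
    have h4' := h3.symm.trans h4
    rcases T.esq g hg with hee | hee
    · left
      refine ⟨hee, ?_⟩
      have h5 := (tw_congr (r' := (g : N →+* N) e) hee T.e0 T.ha T.hb hge hga hgb _).symm.trans h4'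
      exact tw_injective T.e0 T.ha T.hb h5
    · right
      refine ⟨hee, ?_⟩
      have hee' : (g : N →+* N) e = -e := hee
      have hne : -e ≠ 0 := neg_ne_zero.2 T.e0
      have hna : a = (-e) ^ 4 * (-qI d / 3) := by rw [← hee']; exact hga
      have hnb : b = (-e) ^ 6 * (-qJ d / 27) := by rw [← hee']; exact hgb
      have h6 := (tw_congr (r' := (g : N →+* N) e) hee' hne hna hnb hge hga hgb _).symm.trans h4'
      have h7 := (tw_minus T.e0 T.ha T.hb hne hna hnb _).symm.trans h6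
      have h5 := tw_injective T.e0 T.ha T.hb h7
      rw [neg_eq_iff_eq_neg] at h5
      rw [h5, neg_add]
      congr 1
      rw [neg_eq_iff_add_eq_zero, ← two_nsmul, h2U]

end

section

variable {G N : Type} [AddCommGroup G] [Field N] [Algebra ℂ N]

/-- generic points of the double cover of the plane cubic -/
def GenC (δ : N) (f : Fin 10 → N) (D e X Y : N) : Prop :=
  e ^ 2 = D ∧ X ∉ cl0 {δ} ∧ tc f X Y 1 = 0

/-- the sums over the two sheets are constant -/
def NegC (δ : N) (f : Fin 10 → N) (D : N) (B : N → N → N → G) (𝓡 : AddSubgroup G) : Prop :=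
  ∀ e X Y X' Y', GenC δ f D e X Y → GenC δ f D e X' Y' →
    B e X Y + B (-e) X Y - (B e X' Y' + B (-e) X' Y') ∈ 𝓡

/-- the sums over the points on a line are constant -/
def LineC (δ : N) (f : Fin 10 → N) (D : N) (B : N → N → N → G) (𝓡 : AddSubgroup G) : Prop :=
  ∀ (e s t s' t' : N) (X X' : Fin 3 → N), e ^ 2 = D → AlgebraicIndependent ℂ ![δ, s, t] →
    AlgebraicIndependent ℂ ![δ, s', t'] → Function.Injective X → Function.Injective X' →
    (∀ i, tc f (X i) (s * X i + t) 1 = 0) → (∀ i, tc f (X' i) (s' * X' i + t') 1 = 0) →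
    ∑ i, B e (X i) (s * X i + t) - ∑ i, B e (X' i) (s' * X' i + t') ∈ 𝓡

/-- The sum over every finite family of generic points that is permuted by the automorphisms over
a purely transcendental field is a relation. -/
def StarC (δ : N) (f : Fin 10 → N) (D : N) (B : N → N → N → G) (𝓡 : AddSubgroup G) : Prop :=
  ∀ (L : IntermediateField ℂ N), IsRational L → Algebra.IsAlgebraic L N → δ ∈ L →
    ∀ (n : ℕ) (e X Y : Fin n → N), (∀ i, GenC δ f D (e i) (X i) (Y i)) →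
      (∀ g : N ≃ₐ[ℂ] N, (∀ x ∈ L, g x = x) → ∃ σ : Equiv.Perm (Fin n),
        ∀ i, g (e i) = e (σ i) ∧ g (X i) = X (σ i) ∧ g (Y i) = Y (σ i)) →
      ∑ i, B (e i) (X i) (Y i) ∈ 𝓡

theorem StarC.of_inj {δ : N} {f : Fin 10 → N} {D : N} {B : N → N → N → G} {𝓡 : AddSubgroup G}
    (hS : StarC δ f D B 𝓡) (L : IntermediateField ℂ N) (hL : IsRational L)
    (hLa : Algebra.IsAlgebraic L N) (hδ : δ ∈ L) {ι : Type} [Fintype ι] (e X Y : ι → N)
    (hgen : ∀ i, GenC δ f D (e i) (X i) (Y i))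
    (hinj : ∀ i j, e i = e j → X i = X j → Y i = Y j → i = j)
    (hperm : ∀ g : N ≃ₐ[ℂ] N, (∀ x ∈ L, g x = x) → ∀ i, ∃ j,
      g (e i) = e j ∧ g (X i) = X j ∧ g (Y i) = Y j) :
    ∑ i, B (e i) (X i) (Y i) ∈ 𝓡 := by
  classical
  let E := Fintype.equivFin ι
  have h := hS L hL hLa hδ (Fintype.card ι) (e ∘ E.symm) (X ∘ E.symm) (Y ∘ E.symm)
    (fun i => hgen _) (fun g hg => ?_)
  · rw [← E.symm.sum_comp]
    exact h
  · choose τ hτ using hperm g hg
    have hinj' : Function.Injective τ := by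
      intro i j hij
      obtain ⟨h1, h2, h3⟩ := hτ i
      obtain ⟨k1, k2, k3⟩ := hτ j
      rw [hij] at h1 h2 h3
      exact hinj i j (g.injective (h1.trans k1.symm)) (g.injective (h2.trans k2.symm))
        (g.injective (h3.trans k3.symm))
    let σ := Equiv.ofBijective τ (Finite.injective_iff_bijective.1 hinj')
    refine ⟨(E.symm.trans σ).trans E, fun i => ?_⟩
    have h1 := hτ (E.symm i)
    simp only [Function.comp_apply, Equiv.trans_apply, Equiv.symm_apply_apply]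
    exact h1

variable {δ e : N} {f : Fin 10 → N} {A A' : Matrix (Fin 3) (Fin 3) N} {a b : N}

variable [IsAlgClosed N]

open Classical in
/-- a choice of the first coordinate -/
noncomputable def cX (A : Matrix (Fin 3) (Fin 3) N) (P : (wc a b).toAffine.Point) : N :=
  if h : ∃ X Y, At A X Y P then h.choose else 0

open Classical in
/-- a choice of the second coordinate -/
noncomputable def cY (A : Matrix (Fin 3) (Fin 3) N) (P : (wc a b).toAffine.Point) : N :=
  if h : ∃ X Y, At A X Y P then h.choose_spec.choose else 0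

theorem Cb.at_c [CharZero N] (C : Cb δ f A A' a b) {P : (wc a b).toAffine.Point}
    (hP : ¬ InF (cl0 {δ}) P) : At A (cX A P) (cY A P) P := by
  have h := C.at_exists hP
  unfold cX cY
  rw [dif_pos h, dif_pos h]
  exact h.choose_spec.choose_spec

/-- the cycle attached to a point of the Weierstrass form -/
noncomputable def be (B : N → N → N → G) (A : Matrix (Fin 3) (Fin 3) N) (e : N)
    (P : (wc a b).toAffine.Point) : G := B e (cX A P) (cY A P)

variable [DecidableEq N] [CharZero N]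

/-- the sum over the translates by the points of order dividing six -/
noncomputable def ns (B : N → N → N → G) (A : Matrix (Fin 3) (Fin 3) N) (e : N)
    (P : (wc a b).toAffine.Point) : G :=
  ∑ t ∈ tors2 a b, ∑ u ∈ tors a b, be B A e (P + (t + u))

variable {D : N} {B : N → N → N → G} {𝓡 : AddSubgroup G} {d : Fin 5 → N}

theorem Cb.genC (C : Cb δ f A A' a b) (he : e ^ 2 = D) {P : (wc a b).toAffine.Point}
    (hP : ¬ InF (cl0 {δ}) P) : GenC δ f D e (cX A P) (cY A P) :=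
  ⟨he, (C.at_c hP).generic C hP, (C.at_c hP).on C⟩

theorem Cb.rel_neg (C : Cb δ f A A' a b) (hN : NegC δ f D B 𝓡) (he : e ^ 2 = D)
    {P P' : (wc a b).toAffine.Point} (hP : ¬ InF (cl0 {δ}) P) (hP' : ¬ InF (cl0 {δ}) P') :
    be B A e P + be B A (-e) P - (be B A e P' + be B A (-e) P') ∈ 𝓡 :=
  hN _ _ _ _ _ (C.genC he hP) (C.genC he hP')

/-- two points that are independent -/
def Chain (δ : N) (P₁ P₂ : (wc a b).toAffine.Point) : Prop :=
  ∃ M₁ : IntermediateField ℂ N, Closed M₁ ∧ cl0 {δ} ≤ M₁ ∧ ¬ InF (cl0 {δ}) P₁ ∧ InF M₁ P₁ ∧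
    ¬ InF M₁ P₂

theorem Chain.gen₁ {P₁ P₂ : (wc a b).toAffine.Point} (h : Chain δ P₁ P₂) :
    ¬ InF (cl0 {δ}) P₁ := by
  obtain ⟨M₁, -, -, h1, -, -⟩ := h
  exact h1

theorem Chain.gen₂ {P₁ P₂ : (wc a b).toAffine.Point} (h : Chain δ P₁ P₂) :
    ¬ InF (cl0 {δ}) P₂ := by
  obtain ⟨M₁, -, h0, -, -, h2⟩ := h
  exact fun h3 => h2 (h3.mono h0)

theorem Chain.gen₃ (C : Cb δ f A A' a b) {P₁ P₂ : (wc a b).toAffine.Point}
    (h : Chain δ P₁ P₂) : ¬ InF (cl0 {δ}) (-(P₁ + P₂)) := by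
  obtain ⟨M₁, -, h0, -, h1, h2⟩ := h
  intro h3
  apply h2
  have h4 : P₂ = -(-(P₁ + P₂)) - P₁ := by abel
  rw [h4]
  exact ((h3.mono h0).neg).sub (h0 C.mema) h1

theorem Chain.neg_left {P₁ P₂ : (wc a b).toAffine.Point} (h : Chain δ P₁ P₂) :
    Chain δ (-P₁) P₂ := by
  obtain ⟨M₁, hc, h0, h1, h2, h3⟩ := h
  exact ⟨M₁, hc, h0, gen_neg' h1, h2.neg, h3⟩

theorem Chain.shift (C : Cb δ f A A' a b) {P₁ P₂ T : (wc a b).toAffine.Point}
    (h : Chain δ P₁ P₂) (hT : InF (cl0 {δ}) T) : Chain δ (P₁ + T) (P₂ + -T) := by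
  obtain ⟨M₁, hc, h0, h1, h2, h3⟩ := h
  refine ⟨M₁, hc, h0, fun h4 => h1 ?_, h2.add (h0 C.mema) (hT.mono h0), fun h4 => h3 ?_⟩
  · have h5 : P₁ = P₁ + T - T := by abel
    rw [h5]
    exact h4.sub C.mema hT
  · have h5 : P₂ = P₂ + -T + T := by abel
    rw [h5]
    exact h4.add (h0 C.mema) (hT.mono h0)

theorem Cb.rel_line (C : Cb δ f A A' a b) (hL : LineC δ f D B 𝓡) (he : e ^ 2 = D)
    {P₁ P₂ Q₁ Q₂ : (wc a b).toAffine.Point} (hP : Chain δ P₁ P₂) (hQ : Chain δ Q₁ Q₂) :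
    be B A e P₁ + be B A e P₂ + be B A e (-(P₁ + P₂)) -
      (be B A e Q₁ + be B A e Q₂ + be B A e (-(Q₁ + Q₂))) ∈ 𝓡 := by
  have key : ∀ {P₁ P₂ : (wc a b).toAffine.Point}, Chain δ P₁ P₂ →
      ∃ (s t : N) (X : Fin 3 → N), AlgebraicIndependent ℂ ![δ, s, t] ∧ Function.Injective X ∧
        (∀ i, tc f (X i) (s * X i + t) 1 = 0) ∧
        be B A e P₁ + be B A e P₂ + be B A e (-(P₁ + P₂)) = ∑ i, B e (X i) (s * X i + t) := by
    intro P₁ P₂ h
    have H₁ := C.at_c h.gen₁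
    have H₂ := C.at_c h.gen₂
    have H₃ := C.at_c (h.gen₃ C)
    obtain ⟨M₁, hc, h0, h1, h2, h3⟩ := h
    obtain ⟨s, t, hind, hinj, e₁, e₂, e₃⟩ := C.line hc h0 h1 h2 h3 H₁ H₂ H₃
    refine ⟨s, t, _, hind, hinj, ?_, ?_⟩
    · intro i
      fin_cases i
      · change tc f (cX A P₁) (s * cX A P₁ + t) 1 = 0
        rw [← e₁]
        exact H₁.on C
      · change tc f (cX A P₂) (s * cX A P₂ + t) 1 = 0
        rw [← e₂]
        exact H₂.on C
      · change tc f (cX A (-(P₁ + P₂))) (s * cX A (-(P₁ + P₂)) + t) 1 = 0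
        rw [← e₃]
        exact H₃.on C
    · rw [Fin.sum_univ_three]
      change B e (cX A P₁) (cY A P₁) + B e (cX A P₂) (cY A P₂) +
        B e (cX A (-(P₁ + P₂))) (cY A (-(P₁ + P₂))) =
        B e (cX A P₁) (s * cX A P₁ + t) + B e (cX A P₂) (s * cX A P₂ + t) +
        B e (cX A (-(P₁ + P₂))) (s * cX A (-(P₁ + P₂)) + t)
      rw [← e₁, ← e₂, ← e₃]
  obtain ⟨s, t, X, h1, h2, h3, h4⟩ := key hP
  obtain ⟨s', t', X', h1', h2', h3', h4'⟩ := key hQ
  rw [h4, h4']
  exact hL e s t s' t' X X' he h1 h1' h2 h2' h3 h3'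

theorem six_inF (C : Cb δ f A A' a b) {t u : (wc a b).toAffine.Point} (ht : (2 : ℕ) • t = 0)
    (hu : (3 : ℕ) • u = 0) : InF (cl0 {δ}) (t + u) :=
  (tors2_inF (closed_cl0 _) C.mema C.memb ht).add C.mema
    (tors_inF (closed_cl0 _) C.mema C.memb hu)

theorem gen_six (C : Cb δ f A A' a b) {P t u : (wc a b).toAffine.Point}
    (hP : ¬ InF (cl0 {δ}) P) (ht : (2 : ℕ) • t = 0) (hu : (3 : ℕ) • u = 0) :
    ¬ InF (cl0 {δ}) (P + (t + u)) := by
  intro h
  apply hP
  have h1 : P = P + (t + u) - (t + u) := by abel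
  rw [h1]
  exact h.sub C.mema (six_inF C ht hu)

theorem two_three {t t' u u' : (wc a b).toAffine.Point} (ht : (2 : ℕ) • t = 0)
    (ht' : (2 : ℕ) • t' = 0) (hu : (3 : ℕ) • u = 0) (hu' : (3 : ℕ) • u' = 0)
    (h : t + u = t' + u') : t = t' ∧ u = u' := by
  have h1 : t - t' = u' - u := by
    rw [sub_eq_sub_iff_add_eq_add, h]
    abel
  have h2 : (2 : ℕ) • (t - t') = 0 := by rw [nsmul_sub, ht, ht', sub_zero]
  have h3 : (3 : ℕ) • (t - t') = 0 := by rw [h1, nsmul_sub, hu, hu', sub_zero]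
  have h4 : t - t' = 0 := by
    have h5 : t - t' = (3 : ℕ) • (t - t') - (2 : ℕ) • (t - t') := by abel
    rw [h5, h2, h3, sub_zero]
  refine ⟨sub_eq_zero.1 h4, ?_⟩
  rw [h1] at h4
  exact (sub_eq_zero.1 h4).symm

/-- reindexing by the opposite -/
theorem sum_neg {F : (wc a b).toAffine.Point → G} :
    ∑ t ∈ tors2 a b, ∑ u ∈ tors a b, F (-(t + u)) = ∑ t ∈ tors2 a b, ∑ u ∈ tors a b, F (t + u) := by
  classical
  refine Finset.sum_congr rfl fun t ht => ?_
  have ht2 := mem_tors2.1 ht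
  have himage : (tors a b).image (fun u => -u) = tors a b := by
    apply Finset.eq_of_subset_of_card_le
    · intro s hs
      obtain ⟨t, ht, rfl⟩ := Finset.mem_image.1 hs
      rw [mem_tors] at ht ⊢
      rw [smul_neg, ht, neg_zero]
    · rw [Finset.card_image_of_injective _ neg_injective]
  conv_rhs => rw [← himage]
  rw [Finset.sum_image neg_injective.injOn]
  refine Finset.sum_congr rfl fun u _ => ?_
  rw [neg_add, neg_mem_tors2 ht2]

theorem Cb.star (C : Cb δ f A A' a b) (T : Tw δ e d a b) (hS : StarC δ f D B 𝓡)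
    (he : e ^ 2 = D) {P : (wc a b).toAffine.Point} (hP : ¬ InF (cl0 {δ}) P) :
    ns B A e P + ns B A (-e) (-P) ∈ 𝓡 := by
  obtain ⟨L, hL, hLa, hδL, hfix⟩ := T.field C hP
  have he' : (-e) ^ 2 = D := by rw [neg_sq, he]
  have hne : e ≠ -e := by
    intro h
    apply T.e0
    have h1 : (2 : N) * e = 0 := by linear_combination h
    exact (mul_eq_zero.1 h1).resolve_left two_ne_zero
  -- the family
  let ι := {t // t ∈ tors2 a b} × {u // u ∈ tors a b} × Bool
  let Q : ι → (wc a b).toAffine.Point := fun p =>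
    if p.2.2 then -(P + (p.1.1 + p.2.1.1)) else P + (p.1.1 + p.2.1.1)
  let E : ι → N := fun p => if p.2.2 then -e else e
  have hQgen : ∀ p : ι, ¬ InF (cl0 {δ}) (Q p) := by
    rintro ⟨⟨t, ht⟩, ⟨u, hu⟩, bb⟩
    have h1 := gen_six C hP (mem_tors2.1 ht) (mem_tors.1 hu)
    rcases bb with _ | _
    · exact h1
    · exact gen_neg' h1
  have hE2 : ∀ p : ι, E p ^ 2 = D := by
    rintro ⟨t, u, bb⟩
    rcases bb with _ | _
    · exact he
    · exact he'
  have hsum : ns B A e P + ns B A (-e) (-P) =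
      ∑ p : ι, B (E p) (cX A (Q p)) (cY A (Q p)) := by
    rw [Fintype.sum_prod_type]
    simp only [Fintype.sum_prod_type, Fintype.sum_bool]
    simp only [Finset.sum_add_distrib]
    rw [add_comm]
    congr 1
    · unfold ns
      have h1 := sum_neg (a := a) (b := b) (F := fun T => be B A (-e) (-P + T))
      rw [← h1, ← Finset.sum_coe_sort]
      refine Finset.sum_congr rfl fun t _ => ?_
      rw [← Finset.sum_coe_sort]
      refine Finset.sum_congr rfl fun u _ => ?_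
      have h2 : -P + -(t.1 + u.1) = -(P + (t.1 + u.1)) := by abel
      rw [h2]
      rfl
    · unfold ns
      rw [← Finset.sum_coe_sort]
      refine Finset.sum_congr rfl fun t _ => ?_
      rw [← Finset.sum_coe_sort]
      rfl
  rw [hsum]
  refine hS.of_inj L hL hLa hδL E _ _ (fun p => C.genC (hE2 p) (hQgen p)) ?_ fun g hg p => ?_
  · -- the points are distinct
    intro p q h1 h2 h3
    have hA := C.at_c (hQgen p)
    rw [h2, h3] at hA
    have h4 : Q p = Q q := hA.inj C (C.at_c (hQgen q))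
    obtain ⟨⟨t, ht⟩, ⟨u, hu⟩, bb⟩ := p
    obtain ⟨⟨t', ht'⟩, ⟨u', hu'⟩, bb'⟩ := q
    have hb : bb = bb' := by
      rcases bb with _ | _ <;> rcases bb' with _ | _
      · rfl
      · exact absurd h1 hne
      · exact absurd h1.symm hne
      · rfl
    subst hb
    have h5 : t + u = t' + u' := by
      rcases bb with _ | _
      · exact add_left_cancel (show P + (t + u) = P + (t' + u') from h4)
      · exact add_left_cancel (neg_injective (show -(P + (t + u)) = -(P + (t' + u')) from h4))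
    obtain ⟨rfl, rfl⟩ := two_three (mem_tors2.1 ht) (mem_tors2.1 ht') (mem_tors.1 hu)
      (mem_tors.1 hu') h5
    rfl
  · have hgδ : g δ = δ := hg δ hδL
    obtain ⟨U, hU, hcase⟩ := hfix g hg hgδ
    obtain ⟨c, hc, hact⟩ := C.at_act g hgδ
    have hA := hact _ _ _ (hQgen p) (C.at_c (hQgen p))
    suffices hsuff : ∃ q : ι, g (E p) = E q ∧
        gfun (g : N →+* N) ⟨C.fixa g hgδ, C.fixb g hgδ⟩ (Q p) + c = Q q by
      obtain ⟨q, hq1, hq2⟩ := hsuff
      rw [hq2] at hA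
      obtain ⟨h1, h2⟩ := hA.uniq C (C.at_c (hQgen q))
      exact ⟨q, hq1, h1, h2⟩
    have hgt : ∀ {t : (wc a b).toAffine.Point}, (2 : ℕ) • t = 0 →
        (2 : ℕ) • gfun (g : N →+* N) ⟨C.fixa g hgδ, C.fixb g hgδ⟩ t = 0 := by
      intro t ht
      rw [← gfun_nsmul, ht]
      rfl
    have hgu : ∀ {t : (wc a b).toAffine.Point}, (3 : ℕ) • t = 0 →
        (3 : ℕ) • gfun (g : N →+* N) ⟨C.fixa g hgδ, C.fixb g hgδ⟩ t = 0 := by
      intro t ht
      rw [← gfun_nsmul, ht]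
      rfl
    obtain ⟨⟨t, ht⟩, ⟨u, hu⟩, bb⟩ := p
    have ht2 := mem_tors2.1 ht
    have hu3 := mem_tors.1 hu
    set gt := gfun (g : N →+* N) ⟨C.fixa g hgδ, C.fixb g hgδ⟩ t with hgtd
    set gu := gfun (g : N →+* N) ⟨C.fixa g hgδ, C.fixb g hgδ⟩ u with hgud
    have k2 : (2 : ℕ) • gt = 0 := hgt ht2
    have k3 : (3 : ℕ) • gu = 0 := hgu hu3
    have hUgt : (2 : ℕ) • (U + gt) = 0 := by rw [nsmul_add, hU, k2, add_zero]
    have hnU : -U = U := neg_mem_tors2 hU
    have hngt : -gt = gt := neg_mem_tors2 k2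
    have hgsum : gfun (g : N →+* N) ⟨C.fixa g hgδ, C.fixb g hgδ⟩ (P + (t + u)) =
        gfun (g : N →+* N) ⟨C.fixa g hgδ, C.fixb g hgδ⟩ P + (gt + gu) := by
      rw [gfun_add, gfun_add]
    have m1 : U + gt ∈ tors2 a b := mem_tors2.2 hUgt
    rcases hcase with ⟨h1, h2⟩ | ⟨h1, h2⟩
    · rcases bb with _ | _
      · refine ⟨⟨⟨U + gt, m1⟩, ⟨gu + c, mem_tors.2 (by
          rw [nsmul_add, k3, hc, add_zero])⟩, false⟩, h1, ?_⟩
        change gfun (g : N →+* N) _ (P + (t + u)) + c = P + ((U + gt) + (gu + c))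
        rw [hgsum, h2]
        abel
      · refine ⟨⟨⟨U + gt, m1⟩, ⟨gu - c, mem_tors.2 (by
          rw [nsmul_sub, k3, hc, sub_zero])⟩, true⟩, ?_, ?_⟩
        · change g (-e) = -e
          rw [map_neg, h1]
        · change gfun (g : N →+* N) _ (-(P + (t + u))) + c = -(P + ((U + gt) + (gu - c)))
          rw [gfun_neg, hgsum, h2]
          abel
    · rcases bb with _ | _
      · refine ⟨⟨⟨U + gt, m1⟩, ⟨-gu - c, mem_tors.2 (by
          rw [nsmul_sub, smul_neg, k3, hc, neg_zero, sub_zero])⟩, true⟩, h1, ?_⟩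
        change gfun (g : N →+* N) _ (P + (t + u)) + c = -(P + ((U + gt) + (-gu - c)))
        rw [hgsum, h2]
        have h3 : -(P + ((U + gt) + (-gu - c))) = -P + (-U + (-gt + gu)) + c := by abel
        rw [h3, hnU, hngt]
        abel
      · refine ⟨⟨⟨U + gt, m1⟩, ⟨-gu + c, mem_tors.2 (by
          rw [nsmul_add, smul_neg, k3, hc, neg_zero, add_zero])⟩, false⟩, ?_, ?_⟩
        · change g (-e) = e
          rw [map_neg, h1, neg_neg]
        · change gfun (g : N →+* N) _ (-(P + (t + u))) + c = P + ((U + gt) + (-gu + c))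
          rw [gfun_neg, hgsum, h2]
          have h3 : -(-P + U + (gt + gu)) + c = P + ((-U + -gt) + (-gu + c)) := by abel
          rw [h3, hnU, hngt]

end

end Vale.Agent.P297.H54
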