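import Vale.Agent.P297.H54.CubS

/-!
The other side for a family of plane cubics over the line with a rational quadratic twist: the
final statement.
-/

set_option linter.unusedSectionVars false

open IntermediateField Polynomial WeierstrassCurve WeierstrassCurve.Affine Matrix

namespace Vale.Agent.P297.H54

open Vale.Agent.P297 Vale.Agent.P297.Gen Vale.Agent.P297.H839 Vale.Agent.P297.H600
open Vale.Agent.P297.H729 Vale.Agent.P297.Z3 Vale.Agent.P297.G4

section

variable {G N : Type} [AddCommGroup G] [Field N] [Algebra ℂ N]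
variable {δ e : N} {f : Fin 10 → N} {A A' : Matrix (Fin 3) (Fin 3) N} {a b : N}
variable [IsAlgClosed N] [DecidableEq N] [CharZero N]
variable {D : N} {B : N → N → N → G} {𝓡 : AddSubgroup G} {d : Fin 5 → N}

/-- the number of the points of order dividing six -/
noncomputable def six (a b : N) : ℕ := (tors2 a b).card * (tors a b).card

theorem sum_six {c : G} : ∑ _t ∈ tors2 a b, ∑ _u ∈ tors a b, c = six a b • c := by
  simp only [Finset.sum_const, ← mul_smul, six]

theorem six_dvd : ∃ k : ℕ, 36 = k * six a b := by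
  obtain ⟨n, hn⟩ := card_tors2 (a := a) (b := b)
  have hn4 := card_tors2_le (a := a) (b := b)
  obtain ⟨m, hm⟩ := card_tors (a := a) (b := b)
  have hm9 := card_tors_le (a := a) (b := b)
  unfold six
  rw [hn] at hn4 ⊢
  rw [hm] at hm9 ⊢
  have h1 : n ≤ 2 := by
    by_contra h0
    have h3 : 2 ^ 3 ≤ 2 ^ n := Nat.pow_le_pow_right (by norm_num) (by omega)
    omega
  have h2 : m ≤ 2 := by
    by_contra h0
    have h3 : 3 ^ 3 ≤ 3 ^ m := Nat.pow_le_pow_right (by norm_num) (by omega)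
    omega
  refine ⟨2 ^ (2 - n) * 3 ^ (2 - m), ?_⟩
  have h3 : 2 ^ (2 - n) * 2 ^ n = 2 ^ 2 := by rw [← pow_add, Nat.sub_add_cancel h1]
  have h4 : 3 ^ (2 - m) * 3 ^ m = 3 ^ 2 := by rw [← pow_add, Nat.sub_add_cancel h2]
  calc (36 : ℕ) = (2 ^ (2 - n) * 2 ^ n) * (3 ^ (2 - m) * 3 ^ m) := by rw [h3, h4]; norm_num
    _ = _ := by ring

/-- **(B)** the sums over the translates of opposite points -/
theorem Cb.two_ns (C : Cb δ f A A' a b) (T : Tw δ e d a b) (hN : NegC δ f D B 𝓡)
    (hS : StarC δ f D B 𝓡) (he : e ^ 2 = D) {P : (wc a b).toAffine.Point}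
    (hP : ¬ InF (cl0 {δ}) P) : (2 : ℕ) • (ns B A e P - ns B A e (-P)) ∈ 𝓡 := by
  have key : ∀ {Q : (wc a b).toAffine.Point}, ¬ InF (cl0 {δ}) Q →
      ns B A e Q - ns B A e (-Q) + six a b • (be B A e P + be B A (-e) P) ∈ 𝓡 := by
    intro Q hQ
    have h1 := C.star T hS he hQ
    have h2 : ∑ t ∈ tors2 a b, ∑ u ∈ tors a b, (be B A e (-Q + (t + u)) +
        be B A (-e) (-Q + (t + u)) - (be B A e P + be B A (-e) P)) ∈ 𝓡 := by
      refine sum_mem fun t ht => sum_mem fun u hu => ?_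
      exact C.rel_neg hN he (gen_six C (gen_neg' hQ) (mem_tors2.1 ht) (mem_tors.1 hu)) hP
    simp only [Finset.sum_sub_distrib, Finset.sum_add_distrib, sum_six] at h2
    have h3 : ns B A e Q - ns B A e (-Q) + six a b • (be B A e P + be B A (-e) P) =
        (ns B A e Q + ns B A (-e) (-Q)) -
        ((∑ t ∈ tors2 a b, ∑ u ∈ tors a b, be B A e (-Q + (t + u))) +
          (∑ t ∈ tors2 a b, ∑ u ∈ tors a b, be B A (-e) (-Q + (t + u))) -
          six a b • (be B A e P + be B A (-e) P)) := by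
      unfold ns
      abel
    rw [h3]
    refine sub_mem h1 ?_
    convert h2 using 1
    simp only [smul_add, six, mul_smul]
  have h1 := key hP
  have h2 := key (gen_neg' hP)
  rw [neg_neg] at h2
  have h3 : (2 : ℕ) • (ns B A e P - ns B A e (-P)) =
      (ns B A e P - ns B A e (-P) + six a b • (be B A e P + be B A (-e) P)) -
      (ns B A e (-P) - ns B A e P + six a b • (be B A e P + be B A (-e) P)) := by
    rw [two_nsmul]
    abel
  rw [h3]
  exact sub_mem h1 h2

/-- **(A)** -/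
theorem Cb.ns_line (C : Cb δ f A A' a b) (hL : LineC δ f D B 𝓡) (he : e ^ 2 = D)
    {P₁ P₂ Q₁ Q₂ : (wc a b).toAffine.Point} (hP : Chain δ P₁ P₂) (hQ : Chain δ Q₁ Q₂) :
    ns B A e P₁ + ns B A e P₂ + six a b • be B A e (-(P₁ + P₂)) -
      six a b • (be B A e Q₁ + be B A e Q₂ + be B A e (-(Q₁ + Q₂))) ∈ 𝓡 := by
  have h2 : ∑ t ∈ tors2 a b, ∑ u ∈ tors a b, (be B A e (P₁ + (t + u)) +
      be B A e (P₂ + -(t + u)) + be B A e (-(P₁ + P₂)) -
      (be B A e Q₁ + be B A e Q₂ + be B A e (-(Q₁ + Q₂)))) ∈ 𝓡 := by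
    refine sum_mem fun t ht => sum_mem fun u hu => ?_
    have h1 := C.rel_line hL he (hP.shift C (six_inF C (mem_tors2.1 ht) (mem_tors.1 hu))) hQ
    have h3 : -(P₁ + (t + u) + (P₂ + -(t + u))) = -(P₁ + P₂) := by abel
    rwa [h3] at h1
  have h4 : ∑ t ∈ tors2 a b, ∑ u ∈ tors a b, be B A e (P₂ + -(t + u)) = ns B A e P₂ :=
    sum_neg (F := fun T => be B A e (P₂ + T))
  convert h2 using 1
  simp only [Finset.sum_sub_distrib, Finset.sum_add_distrib, sum_six, h4, smul_add]
  unfold ns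
  simp only [six, mul_smul]

/-- **(C)** -/
theorem Cb.diff (C : Cb δ f A A' a b) (T : Tw δ e d a b) (hN : NegC δ f D B 𝓡)
    (hL : LineC δ f D B 𝓡) (hS : StarC δ f D B 𝓡) (he : e ^ 2 = D)
    {P₁ P₂ : (wc a b).toAffine.Point} (hP : Chain δ P₁ P₂) :
    (2 * six a b) • (be B A e (-(P₁ + P₂)) - be B A e (P₁ - P₂)) ∈ 𝓡 := by
  have h1 := C.ns_line hL he hP hP
  have h2 := C.ns_line hL he hP.neg_left hP
  have h3 := C.two_ns T hN hS he hP.gen₁
  have h4 : -(-P₁ + P₂) = P₁ - P₂ := by abel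
  rw [h4] at h2
  have h5 := sub_mem (AddSubgroup.nsmul_mem _ (sub_mem h1 h2) 2) h3
  have h6 : (2 * six a b) • (be B A e (-(P₁ + P₂)) - be B A e (P₁ - P₂)) =
      (2 : ℕ) • ((ns B A e P₁ + ns B A e P₂ + six a b • be B A e (-(P₁ + P₂)) -
        six a b • (be B A e P₁ + be B A e P₂ + be B A e (-(P₁ + P₂)))) -
      (ns B A e (-P₁) + ns B A e P₂ + six a b • be B A e (P₁ - P₂) -
        six a b • (be B A e P₁ + be B A e P₂ + be B A e (-(P₁ + P₂))))) -
      (2 : ℕ) • (ns B A e P₁ - ns B A e (-P₁)) := by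
    rw [← smul_sub, mul_smul]
    congr 1
    rw [smul_sub]
    abel
  rw [h6]
  exact h5

/-- **(D)** -/
theorem Cb.indep (C : Cb δ f A A' a b) (T : Tw δ e d a b) (hN : NegC δ f D B 𝓡)
    (hL : LineC δ f D B 𝓡) (hS : StarC δ f D B 𝓡) (he : e ^ 2 = D)
    {P P' : (wc a b).toAffine.Point} (hP : Chain δ P P') :
    (2 * six a b) • (be B A e P - be B A e P') ∈ 𝓡 := by
  obtain ⟨R, hR⟩ := exists_half C.disc (P' - P)
  obtain ⟨M₁, hc, h01, h1, h2, h3⟩ := hP
  have hκc : Closed (cl0 ({δ} : Set N)) := closed_cl0 _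
  have hP' : P' = P + (R + R) := by
    rw [← two_nsmul, hR]
    abel
  have hRM : ¬ InF M₁ R := by
    intro h
    apply h3
    rw [hP']
    exact h2.add (h01 C.mema) (h.add (h01 C.mema) h)
  have hRκ : ¬ InF (cl0 {δ}) R := fun h => hRM (h.mono h01)
  obtain ⟨x, y, hxy, hRx⟩ : ∃ x y, ∃ h, R = Point.some x y h := by
    rcases R with (_ | ⟨x, y, h⟩)
    · exact absurd (inF_zero _) hRκ
    · exact ⟨x, y, h, rfl⟩
  obtain ⟨x', y', hxy', hPx⟩ : ∃ x y, ∃ h, P = Point.some x y h := by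
    rcases P with (_ | ⟨x, y, h⟩)
    · exact absurd (inF_zero _) h1
    · exact ⟨x, y, h, rfl⟩
  set M := clo (cl0 ({δ} : Set N)) {x} with hM
  have hMc : Closed M := closed_clo _ _
  have hκM : cl0 {δ} ≤ M := le_clo _ _
  have hRin : InF M R := by
    rw [hRx, inF_iff hMc (hκM C.mema) (hκM C.memb)]
    exact mem_clo_self _ _
  have hchain : Chain δ R (-(P + R)) := by
    refine ⟨M, hMc, hκM, hRκ, hRin, fun h => ?_⟩
    have hPM : InF M P := by
      have h4 : P = -(-(P + R)) - R := by abel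
      rw [h4]
      exact h.neg.sub (hκM C.mema) hRin
    have h5 : x' ∈ clo (cl0 {δ}) {x} := by
      rwa [hPx, inF_iff hMc (hκM C.mema) (hκM C.memb)] at hPM
    have h6 : x' ∉ cl0 {δ} := by
      rwa [hPx, inF_iff hκc C.mema C.memb] at h1
    have h7 : x ∈ clo (cl0 {δ}) {x'} := exchange hκc h5 h6
    have h8 : x' ∈ M₁ := by
      rwa [hPx, inF_iff hc (h01 C.mema) (h01 C.memb)] at h2
    apply hRM
    rw [hRx, inF_iff hc (h01 C.mema) (h01 C.memb)]
    exact clo_single_le hc h01 h8 h7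
  have h4 := C.diff T hN hL hS he hchain
  have h5 : -(R + -(P + R)) = P := by abel
  have h6 : R - -(P + R) = P' := by
    rw [hP']
    abel
  rwa [h5, h6] at h4

/-- **(E)** -/
theorem Cb.all (C : Cb δ f A A' a b) (T : Tw δ e d a b) (hN : NegC δ f D B 𝓡)
    (hL : LineC δ f D B 𝓡) (hS : StarC δ f D B 𝓡) (he : e ^ 2 = D)
    {P P' : (wc a b).toAffine.Point} (hP : ¬ InF (cl0 {δ}) P) (hP' : ¬ InF (cl0 {δ}) P') :
    (2 * six a b) • (be B A e P - be B A e P') ∈ 𝓡 := by
  have hκc : Closed (cl0 ({δ} : Set N)) := closed_cl0 _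
  obtain ⟨x, y, hxy, hPx⟩ : ∃ x y, ∃ h, P = Point.some x y h := by
    rcases P with (_ | ⟨x, y, h⟩)
    · exact absurd (inF_zero _) hP
    · exact ⟨x, y, h, rfl⟩
  obtain ⟨x', y', hxy', hPx'⟩ : ∃ x y, ∃ h, P' = Point.some x y h := by
    rcases P' with (_ | ⟨x, y, h⟩)
    · exact absurd (inF_zero _) hP'
    · exact ⟨x, y, h, rfl⟩
  obtain ⟨z, hz⟩ := exists_notMem2 C.deg δ x x'
  obtain ⟨w, hw⟩ := IsAlgClosed.exists_pow_nat_eq (z ^ 3 + a * z + b) (Nat.succ_pos 1)
  have hw' : w ^ 2 = z ^ 3 + a * z + b := hw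
  have hzw : (wc a b).toAffine.Nonsingular z w := wc_nonsing C.disc hw'
  have hz1 : z ∉ clo (cl0 {δ}) {x} := fun h => hz (le_clo _ _ h)
  have hz2 : z ∉ clo (cl0 {δ}) {x'} := by
    intro h
    apply hz
    exact clo_single_le (closed_clo _ _) ((le_clo _ _).trans (le_clo _ _)) (mem_clo_self _ _) h
  have key : ∀ {x y : N} {h : (wc a b).toAffine.Nonsingular x y},
      ¬ InF (cl0 {δ}) (Point.some x y h) → z ∉ clo (cl0 {δ}) {x} →
      Chain δ (Point.some x y h) (Point.some z w hzw) := by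
    intro x y h h1 h2
    refine ⟨clo (cl0 {δ}) {x}, closed_clo _ _, le_clo _ _, h1, ?_, ?_⟩
    · rw [inF_iff (closed_clo _ _) (le_clo _ _ C.mema) (le_clo _ _ C.memb)]
      exact mem_clo_self _ _
    · rw [inF_iff (closed_clo _ _) (le_clo _ _ C.mema) (le_clo _ _ C.memb)]
      exact h2
  subst hPx hPx'
  have h1 := C.indep T hN hL hS he (key hP hz1)
  have h2 := C.indep T hN hL hS he (key hP' hz2)
  have h3 := sub_mem h1 h2
  rw [← smul_sub] at h3
  have h4 : be B A e (Point.some x y hxy) - be B A e (Point.some x' y' hxy') =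
      be B A e (Point.some x y hxy) - be B A e (Point.some z w hzw) -
      (be B A e (Point.some x' y' hxy') - be B A e (Point.some z w hzw)) := by abel
  rw [h4]
  exact h3

theorem Cb.final (C : Cb δ f A A' a b) (T : Tw δ e d a b) (hN : NegC δ f D B 𝓡)
    (hL : LineC δ f D B 𝓡) (hS : StarC δ f D B 𝓡) {X Y X' Y' : N}
    (h : GenC δ f D e X Y) (h' : GenC δ f D e X' Y') :
    (72 : ℤ) • (B e X Y - B e X' Y') ∈ 𝓡 := by
  have key : ∀ {X Y : N}, GenC δ f D e X Y → ∃ P : (wc a b).toAffine.Point,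
      ¬ InF (cl0 {δ}) P ∧ be B A e P = B e X Y := by
    intro X Y h
    obtain ⟨-, h2, h3⟩ := h
    obtain ⟨P, hP⟩ := C.exists_at (X := X) (Y := Y) h3 h2
    have hgen := hP.gen' C h2
    refine ⟨P, hgen, ?_⟩
    obtain ⟨h4, h5⟩ := (C.at_c hgen).uniq C hP
    unfold be
    rw [h4, h5]
  obtain ⟨P, hP, h1⟩ := key h
  obtain ⟨P', hP', h1'⟩ := key h'
  have h2 := C.all T hN hL hS h.1 hP hP'
  rw [h1, h1'] at h2
  obtain ⟨k, hk⟩ := six_dvd (a := a) (b := b)
  have h3 := AddSubgroup.nsmul_mem _ h2 k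
  rw [← mul_smul] at h3
  have h4 : k * (2 * six a b) = 72 := by
    rw [show (72 : ℕ) = 2 * 36 by norm_num, hk]
    ring
  rw [h4] at h3
  exact_mod_cast h3

end

section

variable {G N : Type} [AddCommGroup G] [Field N] [Algebra ℂ N] [IsAlgClosed N]

/-- **The other side for a family of plane cubics.** -/
theorem tside_cubic (h4 : Algebra.trdeg ℂ N = 4) {p q D lam : ℂ[X]} (hp : p.natDegree ≤ 4)
    (hq : q.natDegree ≤ 6) (hdisc : 4 * p ^ 3 + 27 * q ^ 2 ≠ 0)
    (hnt : ∀ α β a b : ℂ, ¬ (p = C α * (C a * X + C b) ^ 4 ∧ q = C β * (C a * X + C b) ^ 6))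
    (hD : D ≠ 0) (hlam : lam ≠ 0) {F : Fin 10 → ℂ[X]}
    (hc4 : c4 F = C (-48) * lam ^ 4 * D ^ 2 * p) (hc6 : c6 F = C (-864) * lam ^ 6 * D ^ 3 * q)
    {δ : N} (hδ : Transcendental ℂ δ) {B : N → N → N → G} {𝓡 : AddSubgroup G}
    (hN : NegC δ (fun i => aeval δ (F i)) (aeval δ D) B 𝓡)
    (hL : LineC δ (fun i => aeval δ (F i)) (aeval δ D) B 𝓡)
    (hS : StarC δ (fun i => aeval δ (F i)) (aeval δ D) B 𝓡) {e X Y X' Y' : N}
    (h : GenC δ (fun i => aeval δ (F i)) (aeval δ D) e X Y)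
    (h' : GenC δ (fun i => aeval δ (F i)) (aeval δ D) e X' Y') :
    (72 : ℤ) • (B e X Y - B e X' Y') ∈ 𝓡 := by
  classical
  have : CharZero N := charZero_of_injective_algebraMap (algebraMap ℂ N).injective
  set κ := cl0 ({δ} : Set N) with hκ
  have hκc : Closed κ := closed_cl0 _
  have : IsAlgClosed κ := isAlgClosed_of_closed hκc
  have : CharZero κ := charZero_of_injective_algebraMap (algebraMap ℂ κ).injective
  have hδκ : δ ∈ κ := subset_cl0 _ rfl
  let δ₀ : κ := ⟨δ, hδκ⟩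
  let ev : ℂ[X] →ₐ[ℂ] κ := aeval δ₀
  set σ : κ →+* N := algebraMap κ N with hσ
  have hσev : ∀ r : ℂ[X], σ (ev r) = aeval δ r := by
    intro r
    have h1 : κ.val.comp ev = aeval δ := by
      apply Polynomial.algHom_ext
      change κ.val (ev Polynomial.X) = _
      rw [aeval_X, aeval_X]
      rfl
    exact DFunLike.congr_fun h1 r
  have htr : Transcendental ℂ δ₀ := by
    intro halg
    apply hδ
    exact halg.algebraMap (A := N)
  have hinj : Function.Injective ev := transcendental_iff_injective.1 htr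
  have hinjN : Function.Injective (aeval δ : ℂ[X] →ₐ[ℂ] N) := transcendental_iff_injective.1 hδ
  have hlam0 : ev lam ≠ 0 := fun h => hlam (hinj (h.trans (map_zero ev).symm))
  have hD0 : aeval δ D ≠ 0 := fun h => hD (hinjN (h.trans (map_zero _).symm))
  let f₀ : Fin 10 → κ := fun i => (ev lam)⁻¹ * ev (F i)
  have hev4 : c4 f₀ = (ev lam)⁻¹ ^ 4 * ev (c4 F) :=
    (c4_smul _ _).trans (congrArg _ (map_c4 ev.toRingHom F))
  have hev6 : c6 f₀ = (ev lam)⁻¹ ^ 6 * ev (c6 F) :=
    (c6_smul _ _).trans (congrArg _ (map_c6 ev.toRingHom F))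
  have hC : ∀ c : ℂ, ev (C c) = algebraMap ℂ κ c := fun c => aeval_C _ c
  set a₀ : κ := -c4 f₀ / 48 with ha₀
  set b₀ : κ := -c6 f₀ / 864 with hb₀
  have ha₁ : a₀ = ev D ^ 2 * ev p := by
    rw [ha₀, hev4, hc4, map_mul, map_mul, map_mul, map_pow, map_pow, hC, map_neg, map_ofNat]
    generalize ev lam = w at hlam0 ⊢
    field_simp
  have hb₁ : b₀ = ev D ^ 3 * ev q := by
    rw [hb₀, hev6, hc6, map_mul, map_mul, map_mul, map_pow, map_pow, hC, map_neg, map_ofNat]
    generalize ev lam = w at hlam0 ⊢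
    field_simp
  have hD0κ : ev D ≠ 0 := fun h => hD (hinj (h.trans (map_zero ev).symm))
  have hdisc₀ : 4 * a₀ ^ 3 + 27 * b₀ ^ 2 ≠ 0 := by
    intro h0
    apply hdisc
    apply hinj
    apply mul_left_cancel₀ (pow_ne_zero 6 hD0κ)
    rw [map_add, map_mul, map_mul, map_pow, map_pow, map_ofNat, map_ofNat, map_zero, mul_zero,
      ← h0, ha₁, hb₁]
    ring
  have hne₀ : c4 f₀ ^ 3 ≠ c6 f₀ ^ 2 := by
    intro h0
    apply hdisc₀
    rw [ha₀, hb₀]
    linear_combination (-1 / 27648 : κ) * h0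
  obtain ⟨A₀, hdet₀, hA₀⟩ := stmtNormal stmtCov κ f₀ hne₀
  have hσmem : ∀ z : κ, σ z ∈ κ := fun z => z.2
  have hfix : ∀ g : N ≃ₐ[ℂ] N, g δ = δ → ∀ r : ℂ[X], g (aeval δ r) = aeval δ r := by
    intro g hg r
    have h1 := Polynomial.aeval_algHom_apply g.toAlgHom δ r
    change aeval (g δ) r = g (aeval δ r) at h1
    rw [← h1, hg]
  have hσa : σ a₀ = aeval δ D ^ 2 * aeval δ p := by
    rw [ha₁, map_mul, map_pow, hσev, hσev]
  have hσb : σ b₀ = aeval δ D ^ 3 * aeval δ q := by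
    rw [hb₁, map_mul, map_pow, hσev, hσev]
  have hmul : (A₀.map σ) * (A₀⁻¹.map σ) = 1 := by
    rw [← Matrix.map_mul, Matrix.mul_nonsing_inv _ (isUnit_iff_ne_zero.2 hdet₀)]
    exact Matrix.map_one _ (map_zero σ) (map_one σ)
  have hmul' : (A₀⁻¹.map σ) * (A₀.map σ) = 1 := by
    rw [← Matrix.map_mul, Matrix.nonsing_inv_mul _ (isUnit_iff_ne_zero.2 hdet₀)]
    exact Matrix.map_one _ (map_zero σ) (map_one σ)
  have hf₀ : ∀ i, σ (f₀ i) = (σ (ev lam))⁻¹ * aeval δ (F i) := by
    intro i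
    change σ ((ev lam)⁻¹ * ev (F i)) = _
    rw [map_mul, map_inv₀, hσev (F i)]
  have hlamN : σ (ev lam) ≠ 0 := (map_ne_zero σ).2 hlam0
  have Cb₀ : Cb δ (fun i => σ (f₀ i)) (A₀.map σ) (A₀⁻¹.map σ) (σ a₀) (σ b₀) :=
    { deg := h4
      tr0 := hδ
      fixf := by
        intro g hg i
        rw [hf₀, map_mul, map_inv₀, hσev, hfix g hg, hfix g hg]
      fixa := by
        intro g hg
        rw [hσa, map_mul, map_pow, hfix g hg, hfix g hg]
      fixb := by
        intro g hg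
        rw [hσb, map_mul, map_pow, hfix g hg, hfix g hg]
      mema := hσmem _
      memb := hσmem _
      memA := fun i j => hσmem _
      memA' := fun i j => hσmem _
      mul := hmul
      mul' := hmul'
      tr := extend_tr σ f₀ a₀ b₀ A₀ hA₀
      disc := by
        intro h0
        apply hdisc₀
        apply σ.injective
        rw [map_zero, ← h0]
        simp only [map_add, map_mul, map_pow, map_ofNat] }
  -- change of the equation by a factor
  have htc : ∀ x y : N, tc (fun i => σ (f₀ i)) x y 1 = 0 ↔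
      tc (fun i => aeval δ (F i)) x y 1 = 0 := by
    intro x y
    have h1 : tc (fun i => σ (f₀ i)) x y 1 =
        (σ (ev lam))⁻¹ * tc (fun i => aeval δ (F i)) x y 1 := by
      unfold tc
      simp only [hf₀]
      ring
    rw [h1]
    constructor
    · intro h2
      exact (mul_eq_zero.1 h2).resolve_left (inv_ne_zero hlamN)
    · intro h2
      rw [h2, mul_zero]
  have hgen : ∀ e X Y : N, GenC δ (fun i => σ (f₀ i)) (aeval δ D) e X Y ↔
      GenC δ (fun i => aeval δ (F i)) (aeval δ D) e X Y := by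
    intro e X Y
    unfold GenC
    rw [htc]
  have hN' : NegC δ (fun i => σ (f₀ i)) (aeval δ D) B 𝓡 := by
    intro e X Y X' Y' h1 h2
    exact hN e X Y X' Y' ((hgen _ _ _).1 h1) ((hgen _ _ _).1 h2)
  have hL' : LineC δ (fun i => σ (f₀ i)) (aeval δ D) B 𝓡 := by
    intro e s t s' t' X X' h1 h2 h3 h5 h6 h7 h8
    exact hL e s t s' t' X X' h1 h2 h3 h5 h6 (fun i => (htc _ _).1 (h7 i))
      (fun i => (htc _ _).1 (h8 i))
  have hS' : StarC δ (fun i => σ (f₀ i)) (aeval δ D) B 𝓡 := by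
    intro L h1 h2 h3 n e X Y h5 h6
    exact hS L h1 h2 h3 n e X Y (fun i => (hgen _ _ _).1 (h5 i)) h6
  -- the quartic
  obtain ⟨Dq, hDp, hDq⟩ := H637.exists_pen (C (-3) * p) (C (-27) * q)
    ((natDegree_C_mul_le _ _).trans hp) ((natDegree_C_mul_le _ _).trans hq)
  have hdl : ∀ l : ℂ, qI (H160.dq Dq l) = -3 * p.eval l ∧ qJ (H160.dq Dq l) = -27 * q.eval l := by
    intro l
    rw [← H637.eval_penP, ← H55.map_qI, ← H55.map_qJ, hDp, hDq]
    simp only [coe_evalRingHom, eval_mul, eval_C]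
    exact ⟨trivial, trivial⟩
  have hd1 : qI (H160.dq (fun i j => algebraMap ℂ N (Dq i j)) δ) = -3 * aeval δ p := by
    rw [← H637.aeval_penP, ← H55.map_qI, hDp]
    change aeval δ (C (-3) * p) = _
    rw [map_mul, aeval_C, map_neg, map_ofNat]
  have hd2 : qJ (H160.dq (fun i j => algebraMap ℂ N (Dq i j)) δ) = -27 * aeval δ q := by
    rw [← H637.aeval_penP, ← H55.map_qJ, hDq]
    change aeval δ (C (-27) * q) = _
    rw [map_mul, aeval_C, map_neg, map_ofNat]
  have hdx : H160.dx Dq 1 ^ 2 - 4 * H160.dx Dq 2 * H160.dx Dq 0 ≠ 0 := by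
    refine H212.Four.dx_disc_ne Dq ?_ ?_
    · by_contra hcon
      push Not at hcon
      apply hdisc
      apply Polynomial.funext
      intro l
      have h1 := hcon l
      rw [(hdl l).1, (hdl l).2] at h1
      simp only [eval_add, eval_mul, eval_pow, eval_zero]
      have h5 : eval l (4 : ℂ[X]) = 4 := eval_ofNat (R := ℂ) 4 l
      have h6 : eval l (27 : ℂ[X]) = 27 := eval_ofNat (R := ℂ) 27 l
      rw [h5, h6]
      linear_combination (-1 / 27 : ℂ) * h1
    · intro α β a b hall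
      apply hnt (-α / 3) (-β / 27) a b
      constructor
      · apply Polynomial.funext
        intro l
        have h1 := (hall l).1
        rw [(hdl l).1] at h1
        simp only [eval_mul, eval_pow, eval_add, eval_C, eval_X]
        linear_combination (-1 / 3 : ℂ) * h1
      · apply Polynomial.funext
        intro l
        have h1 := (hall l).2
        rw [(hdl l).2] at h1
        simp only [eval_mul, eval_pow, eval_add, eval_C, eval_X]
        linear_combination (-1 / 27 : ℂ) * h1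
  have he0 : e ≠ 0 := by
    rintro rfl
    apply hD0
    rw [← h.1]
    ring
  have heκ : e ∈ κ := by
    apply hκc
    refine isAlgebraic_of_coeff (p := Polynomial.X ^ 2 - Polynomial.C (aeval δ D)) ?_ ?_ ?_
    · intro n
      rw [coeff_sub, coeff_X_pow, coeff_C]
      refine sub_mem ?_ ?_
      · split_ifs
        · exact one_mem _
        · exact zero_mem _
      · split_ifs
        · rw [← hσev]
          exact hσmem _
        · exact zero_mem _
    · exact (monic_X_pow_sub_C _ two_ne_zero).ne_zero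
    · rw [eval_sub, eval_pow, eval_X, eval_C, h.1, sub_self]
  have T : Tw δ e (H160.dq (fun i j => algebraMap ℂ N (Dq i j)) δ) (σ a₀) (σ b₀) :=
    { e0 := he0
      esq := by
        intro g hg
        apply sq_eq_sq_iff_eq_or_eq_neg.1
        rw [← map_pow, h.1, hfix g hg]
      eme := heκ
      memd := J.dq_mem Dq hδκ
      fixd := by
        intro g hg i
        have h3 := J.map_dq (J.rh g) (fun i j => algebraMap ℂ N (Dq i j)) δ i
        change g _ = H160.dq (fun i j => g (algebraMap ℂ N (Dq i j))) (g δ) i at h3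
        rw [h3, hg]
        simp only [AlgEquiv.commutes]
      discd := by
        rw [hd1, hd2]
        intro h0
        apply hdisc
        apply hinjN
        rw [map_zero, map_add, map_mul, map_mul, map_pow, map_pow, map_ofNat, map_ofNat]
        linear_combination (-1 / 27 : N) * h0
      ha := by
        rw [hσa, hd1, ← h.1]
        ring
      hb := by
        rw [hσb, hd2, ← h.1]
        ring
      rat := by
        intro x y t₁ t₂ hx ht₁ ht₂ hy
        have hind : AlgebraicIndependent ℂ ![x, δ, t₁, t₂] := by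
          refine ind_of_all h4 fun z => ?_
          have k0 : x ∈ cl0 (Set.range ![x, δ, t₁, t₂]) := subset_cl0 _ ⟨0, rfl⟩
          have k1 : δ ∈ cl0 (Set.range ![x, δ, t₁, t₂]) := subset_cl0 _ ⟨1, rfl⟩
          have k2 : t₁ ∈ cl0 (Set.range ![x, δ, t₁, t₂]) := subset_cl0 _ ⟨2, rfl⟩
          have k3 : t₂ ∈ cl0 (Set.range ![x, δ, t₁, t₂]) := subset_cl0 _ ⟨3, rfl⟩
          exact full h4 hδ hx ht₁ ht₂ (closed_cl0 _) k1 k0 k2 k3 z
        exact H212.Four.quart_rational Dq hdx hind hy }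
  exact Cb₀.final T hN' hL' hS' ((hgen _ _ _).2 h) ((hgen _ _ _).2 h')

end

end Vale.Agent.P297.H54
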