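import Vale.Agent.P297.H54.CubE
import Vale.Agent.P297.H80.Z3.Dict

/-!
From the relations between the lines of one orientation to the constancy of the cycle of a line.
-/

set_option linter.unusedSectionVars false

open IntermediateField Polynomial

namespace Vale.Agent.P297.H54

open Vale.Agent.P297 Vale.Agent.P297.Gen Vale.Agent.P297.H839 Vale.Agent.P297.H600
open Vale.Agent.P297.H729 Vale.Agent.P297.Z3 Vale.Agent.P297.H72 Vale.Agent.P297.H521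
open Vale.Agent.P297.H80

theorem glue_aux {G : Type} [AddCommGroup G] {R : AddSubgroup G}
    {A1 A2 A3 B1 B2 B3 P1 P2 Q1 Q2 : G} (key : (72 : ℤ) • (A1 + A2 + A3 - (B1 + B2 + B3)) ∈ R)
    (r0 : A1 + P1 - (B1 + Q1) ∈ R) (s1 : A2 + P1 - (B2 + Q1) ∈ R)
    (r1 : A2 + P2 - (B2 + Q2) ∈ R) (s2 : A3 + P2 - (B3 + Q2) ∈ R) :
    (216 : ℤ) • (A1 - B1) ∈ R := by
  have t1 := sub_mem r0 s1
  have t2 := sub_mem r1 s2
  have t3 := add_mem key (AddSubgroup.zsmul_mem _ (add_mem (add_mem t1 t1) t2) 72)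
  have h : (216 : ℤ) • (A1 - B1) = (72 : ℤ) • (A1 + A2 + A3 - (B1 + B2 + B3)) +
      (72 : ℤ) • (A1 + P1 - (B1 + Q1) - (A2 + P1 - (B2 + Q1)) +
        (A1 + P1 - (B1 + Q1) - (A2 + P1 - (B2 + Q1))) +
        (A2 + P2 - (B2 + Q2) - (A3 + P2 - (B3 + Q2)))) := by
    module
  rw [h]
  exact t3

section

variable {N : Type} [Field N] [Algebra ℂ N]

/-- The generic data over `δ`: ordered roots `v` of a cubic, and a point `(β, n)`. -/
structure GDat (c : Fin 3 → N) (S0 S1 E2 : N → N) (δ e : N) (v : Fin 3 → N) (β : N)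
    (n : Fin 3 → N) : Prop where
  rts : Rts c e v
  s0 : n 0 + n 1 + n 2 = S0 β
  s1 : v 0 * n 0 + v 1 * n 1 + v 2 * n 2 = S1 β
  pr : n 0 * n 1 * n 2 = E2 β
  gen : β ∉ cl0 {δ}

variable {c : Fin 3 → N} {S0 S1 E2 : N → N} {δ e : N} {v : Fin 3 → N} {β : N} {n : Fin 3 → N}

theorem GDat.rot (h : GDat c S0 S1 E2 δ e v β n) : GDat c S0 S1 E2 δ e (rot v) β (rot n) where
  rts := h.rts.rot
  s0 := by
    rw [rot_zero, rot_one, rot_two, ← h.s0]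
    ring
  s1 := by
    rw [rot_zero, rot_one, rot_two, rot_zero, rot_one, rot_two, ← h.s1]
    ring
  pr := by
    rw [rot_zero, rot_one, rot_two, ← h.pr]
    ring
  gen := h.gen

theorem GDat.swp (h : GDat c S0 S1 E2 δ e v β n) :
    GDat c S0 S1 E2 δ (-e) (swp v) β (swp n) where
  rts := h.rts.swp
  s0 := by
    rw [swp_zero, swp_one, swp_two, ← h.s0]
    ring
  s1 := by
    rw [swp_zero, swp_one, swp_two, swp_zero, swp_one, swp_two, ← h.s1]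
    ring
  pr := by
    rw [swp_zero, swp_one, swp_two, ← h.pr]
    ring
  gen := h.gen

/-- the exchange of the first and the last index -/
def swq {R : Type} (v : Fin 3 → R) : Fin 3 → R := ![v 2, v 1, v 0]

@[simp] theorem swq_zero {R : Type} (v : Fin 3 → R) : swq v 0 = v 2 := rfl
@[simp] theorem swq_one {R : Type} (v : Fin 3 → R) : swq v 1 = v 1 := rfl
@[simp] theorem swq_two {R : Type} (v : Fin 3 → R) : swq v 2 = v 0 := rfl

theorem swq_rot {R : Type} (v : Fin 3 → R) : swq (rot v) = swp v := by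
  funext i
  fin_cases i <;> rfl

theorem swp_rot_rot {R : Type} (v : Fin 3 → R) : swp (rot (rot v)) = rot (swp v) := by
  funext i
  fin_cases i <;> rfl

/-- The point of the plane cubic. -/
def yy (v n : Fin 3 → N) : N := v 0 ^ 2 * n 0 + v 1 ^ 2 * n 1 + v 2 ^ 2 * n 2

theorem GDat.nn_eq (h : GDat c S0 S1 E2 δ e v β n) (he : e ≠ 0) :
    n = nn v ![S0 β, S1 β, yy v n] :=
  nn_unique h.rts he h.s0 h.s1 rfl

variable {f : Fin 10 → N} {D : N}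

/-- A generic datum gives a generic point of the plane cubic. -/
theorem GDat.genC (hcD : disc3 c = D)
    (htc : ∀ X Y, tc f X Y 1 = 0 ↔ nrm3 c ![S0 X, S1 X, Y] = -(disc3 c * E2 X))
    (h : GDat c S0 S1 E2 δ e v β n) (he : e ≠ 0) : GenC δ f D e β (yy v n) := by
  refine ⟨?_, h.gen, ?_⟩
  · rw [← hcD]
    exact h.rts.disc.symm
  · rw [htc]
    have h1 := prod_nn h.rts he ![S0 β, S1 β, yy v n]
    rw [← h.nn_eq he, h.pr, ← h.rts.disc] at h1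
    rw [h1, neg_neg]

/-- A generic point of the plane cubic gives a generic datum. -/
theorem gdat_of_genC (htc : ∀ X Y, tc f X Y 1 = 0 ↔ nrm3 c ![S0 X, S1 X, Y] = -(disc3 c * E2 X)) {X Y : N}
    (h : GenC δ f D e X Y) (he : e ≠ 0) (hv : Rts c e v) :
    GDat c S0 S1 E2 δ e v X (nn v ![S0 X, S1 X, Y]) where
  rts := hv
  s0 := sum_nn hv he _
  s1 := sum_nn1 hv he _
  pr := by
    have h1 := prod_nn hv he ![S0 X, S1 X, Y]
    rw [(htc X Y).1 h.2.2, neg_neg, hv.disc] at h1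
    exact mul_left_cancel₀ (pow_ne_zero 2 he) h1
  gen := h.2.1

variable {K : Type} [Field K] [Algebra ℂ K]

/-- The sum of the cycles of the lines of one orientation. -/
noncomputable def canB (c : Fin 3 → N) (S0 S1 : N → N)
    (Bs : (Fin 3 → N) → N → (Fin 3 → N) → ((K →ₐ[ℂ] N) →₀ ℤ)) (e X Y : N) :
    (K →ₐ[ℂ] N) →₀ ℤ :=
  can (fun v n => Bs v X n) c e ![S0 X, S1 X, Y]

variable {Bs : (Fin 3 → N) → N → (Fin 3 → N) → ((K →ₐ[ℂ] N) →₀ ℤ)} {m : ℤ}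

/-- The cycles of the lines are equivariant. -/
def EquS (c : Fin 3 → N) (S0 S1 E2 : N → N) (δ : N)
    (Bs : (Fin 3 → N) → N → (Fin 3 → N) → ((K →ₐ[ℂ] N) →₀ ℤ)) : Prop :=
  ∀ g : N ≃ₐ[ℂ] N, g δ = δ → ∀ e v β n, GDat c S0 S1 E2 δ e v β n →
    Finsupp.mapDomain (fun φ : K →ₐ[ℂ] N => g.toAlgHom.comp φ) (Bs v β n) =
      Bs (g ∘ v) (g β) (g ∘ n)

/-- The relation of the first pencil. -/
def Rel0 (m : ℤ) (c : Fin 3 → N) (S0 S1 E2 : N → N) (δ : N)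
    (Bs : (Fin 3 → N) → N → (Fin 3 → N) → ((K →ₐ[ℂ] N) →₀ ℤ)) : Prop :=
  ∀ e v β n β' n', GDat c S0 S1 E2 δ e v β n → GDat c S0 S1 E2 δ e v β' n' →
    (Bs v β n + Bs (swp v) β (swp n)) - (Bs v β' n' + Bs (swp v) β' (swp n')) ∈ Rel m K N

/-- The relation of the second pencil. -/
def Rel1 (m : ℤ) (c : Fin 3 → N) (S0 S1 E2 : N → N) (δ : N)
    (Bs : (Fin 3 → N) → N → (Fin 3 → N) → ((K →ₐ[ℂ] N) →₀ ℤ)) : Prop :=
  ∀ e v β n β' n', GDat c S0 S1 E2 δ e v β n → GDat c S0 S1 E2 δ e v β' n' →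
    (Bs v β n + Bs (swq v) β (swq n)) - (Bs v β' n' + Bs (swq v) β' (swq n')) ∈ Rel m K N

variable [CharZero N]

theorem canB_eq (he : e ≠ 0) (hv : Rts c e v) (X Y : N) : canB c S0 S1 Bs e X Y =
    Bs v X (nn v ![S0 X, S1 X, Y]) + Bs (rot v) X (rot (nn v ![S0 X, S1 X, Y])) +
      Bs (rot (rot v)) X (rot (rot (nn v ![S0 X, S1 X, Y]))) :=
  can_eq _ _ hv he

theorem canB_neg (he : e ≠ 0) (hv : Rts c e v) (X Y : N) : canB c S0 S1 Bs (-e) X Y =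
    Bs (swp v) X (swp (nn v ![S0 X, S1 X, Y])) +
      Bs (rot (swp v)) X (rot (swp (nn v ![S0 X, S1 X, Y]))) +
      Bs (rot (rot (swp v))) X (rot (rot (swp (nn v ![S0 X, S1 X, Y])))) :=
  can_neg _ _ hv he

theorem canB_dat (he : e ≠ 0) (h : GDat c S0 S1 E2 δ e v β n) :
    canB c S0 S1 Bs e β (yy v n) =
    Bs v β n + Bs (rot v) β (rot n) + Bs (rot (rot v)) β (rot (rot n)) := by
  rw [canB_eq he h.rts, ← h.nn_eq he]

variable [IsAlgClosed N]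

theorem equG_canB (hc : ∀ g : N ≃ₐ[ℂ] N, g δ = δ → ∀ i, g (c i) = c i)
    (hS0 : ∀ g : N ≃ₐ[ℂ] N, g δ = δ → ∀ x, g (S0 x) = S0 (g x))
    (hS1 : ∀ g : N ≃ₐ[ℂ] N, g δ = δ → ∀ x, g (S1 x) = S1 (g x)) (hD : D ≠ 0)
    (hcD : disc3 c = D)
    (htc : ∀ X Y, tc f X Y 1 = 0 ↔ nrm3 c ![S0 X, S1 X, Y] = -(disc3 c * E2 X))
    (hBs : EquS c S0 S1 E2 δ Bs) : EquG δ f D (canB c S0 S1 Bs) := by
  intro g hg e X Y h
  have he : e ≠ 0 := by
    rintro rfl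
    apply hD
    rw [← h.1]
    ring
  obtain ⟨v, hv⟩ := exists_rts c (h.1.trans hcD.symm)
  have h1 := can_map (fun v n => Bs v X n) (fun v n => Bs v (g X) n) (g : N →+* N)
    (act g.toAlgHom : ((K →ₐ[ℂ] N) →₀ ℤ) →+ _) ![S0 X, S1 X, Y] hv he ?_
  · have h2 : (g : N →+* N) ∘ c = c := by
      funext i
      exact hc g hg i
    have h3 : (g : N →+* N) ∘ ![S0 X, S1 X, Y] = ![S0 (g X), S1 (g X), g Y] := by
      funext i
      fin_cases i
      · exact hS0 g hg X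
      · exact hS1 g hg X
      · rfl
    rw [h2, h3] at h1
    exact h1
  · intro w n hw k0 k1 k2
    refine hBs g hg e w X n ⟨hw, k0, k1, ?_, h.2.1⟩
    have k3 : n = nn w ![S0 X, S1 X, Y] := nn_unique hw he k0 k1 k2
    rw [k3]
    exact (gdat_of_genC htc h he hw).pr

theorem negC_canB (hD : D ≠ 0) (hcD : disc3 c = D)
    (htc : ∀ X Y, tc f X Y 1 = 0 ↔ nrm3 c ![S0 X, S1 X, Y] = -(disc3 c * E2 X))
    (hR0 : Rel0 m c S0 S1 E2 δ Bs) : NegC δ f D (canB c S0 S1 Bs) (Rel m K N) := by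
  intro e X Y X' Y' h h'
  have he : e ≠ 0 := by
    rintro rfl
    apply hD
    rw [← h.1]
    ring
  obtain ⟨v, hv⟩ := exists_rts c (h.1.trans hcD.symm)
  have k := gdat_of_genC htc h he hv
  have k' := gdat_of_genC htc h' he hv
  have r0 := hR0 _ _ _ _ _ _ k k'
  have r1 := hR0 _ _ _ _ _ _ k.rot k'.rot
  have r2 := hR0 _ _ _ _ _ _ k.rot.rot k'.rot.rot
  rw [canB_eq he hv, canB_eq he hv, canB_neg he hv, canB_neg he hv]
  rw [swp_rot, swp_rot, swp_rot] at r1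
  rw [swp_rot_rot, swp_rot_rot, swp_rot_rot] at r2
  have r3 := add_mem (add_mem r0 r1) r2
  refine (congrArg (· ∈ Rel m K N) ?_).mp r3
  abel

/-- **The cycle of a line is constant up to `216`.** -/
theorem delta216 (h4 : Algebra.trdeg ℂ N = 4) {p q D lam : ℂ[X]} (hp : p.natDegree ≤ 4)
    (hq : q.natDegree ≤ 6) (hdisc : 4 * p ^ 3 + 27 * q ^ 2 ≠ 0)
    (hnt : ∀ α β a b : ℂ, ¬ (p = C α * (C a * X + C b) ^ 4 ∧ q = C β * (C a * X + C b) ^ 6))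
    (hD : D ≠ 0) (hlam : lam ≠ 0) {F : Fin 10 → ℂ[X]} (hF6 : F 6 ≠ 0)
    (hc4 : c4 F = C (-48) * lam ^ 4 * D ^ 2 * p) (hc6 : c6 F = C (-864) * lam ^ 6 * D ^ 3 * q)
    {δ : N} (hδ : Transcendental ℂ δ) {c : Fin 3 → N} {S0 S1 E2 : N → N}
    (hc : ∀ g : N ≃ₐ[ℂ] N, g δ = δ → ∀ i, g (c i) = c i)
    (hS0 : ∀ g : N ≃ₐ[ℂ] N, g δ = δ → ∀ x, g (S0 x) = S0 (g x))
    (hS1 : ∀ g : N ≃ₐ[ℂ] N, g δ = δ → ∀ x, g (S1 x) = S1 (g x))
    (hcD : disc3 c = aeval δ D)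
    (htc : ∀ X Y, tc (fun i => aeval δ (F i)) X Y 1 = 0 ↔
      nrm3 c ![S0 X, S1 X, Y] = -(disc3 c * E2 X))
    {Bs : (Fin 3 → N) → N → (Fin 3 → N) → ((K →ₐ[ℂ] N) →₀ ℤ)}
    (hBs : EquS c S0 S1 E2 δ Bs) (hR0 : Rel0 m c S0 S1 E2 δ Bs) (hR1 : Rel1 m c S0 S1 E2 δ Bs)
    {e : N} {v : Fin 3 → N} {β β' : N} {n n' : Fin 3 → N}
    (h : GDat c S0 S1 E2 δ e v β n) (h' : GDat c S0 S1 E2 δ e v β' n') :
    (216 : ℤ) • (Bs v β n - Bs v β' n') ∈ Rel m K N := by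
  have hinj : Function.Injective (aeval δ : ℂ[X] →ₐ[ℂ] N) := transcendental_iff_injective.1 hδ
  have hD' : aeval δ D ≠ 0 := fun h0 => hD (hinj (h0.trans (map_zero _).symm))
  have he : e ≠ 0 := by
    rintro rfl
    apply hD'
    rw [← hcD, h.rts.disc]
    ring
  have key := tside_equ (m := m) h4 hp hq hdisc hnt hD hlam hF6 hc4 hc6 hδ
    (equG_canB hc hS0 hS1 hD' hcD htc hBs) (negC_canB hD' hcD htc hR0)
    (h.genC hcD htc he) (h'.genC hcD htc he)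
  rw [canB_dat he h, canB_dat he h'] at key
  -- the three lines of one orientation
  have r0 := hR0 _ _ _ _ _ _ h h'
  have r1 := hR0 _ _ _ _ _ _ h.rot h'.rot
  have s1 := hR1 _ _ _ _ _ _ h.rot h'.rot
  have s2 := hR1 _ _ _ _ _ _ h.rot.rot h'.rot.rot
  rw [swq_rot, swq_rot, swq_rot] at s1 s2
  exact glue_aux key r0 s1 r1 s2

end

end Vale.Agent.P297.H54
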