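import Vale.Agent.P297.H637.T8

/-!
A function on the generic points of an elliptic curve over a field of transcendence degree four
that is additive on independent points comes from a homomorphism (up to two-torsion).
-/

set_option linter.unusedSectionVars false

open IntermediateField Polynomial WeierstrassCurve WeierstrassCurve.Affine

namespace Vale.Agent.P297.H54

open Vale.Agent.P297 Vale.Agent.P297.Gen Vale.Agent.P297.H839 Vale.Agent.P297.H600
open Vale.Agent.P297.H729 Vale.Agent.P297.Z3 Vale.Agent.P297.G4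

section

variable {N : Type} [Field N] [Algebra ℂ N] {a b : N}

/-- first coordinate (zero at the origin) -/
def px : (wc a b).toAffine.Point → N
  | 0 => 0
  | .some x _ _ => x

theorem px_neg (P : (wc a b).toAffine.Point) : px (-P) = px P := by
  rcases P with (_ | ⟨x, y, h⟩)
  · rfl
  · rfl

theorem inF_px {M : IntermediateField ℂ N} (hM : Closed M) (ha : a ∈ M) (hb : b ∈ M)
    {P : (wc a b).toAffine.Point} : InF M P ↔ px P ∈ M := by
  rcases P with (_ | ⟨x, y, h⟩)
  · exact ⟨fun _ => zero_mem M, fun _ => inF_zero M⟩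
  · exact inF_iff hM ha hb h

variable [IsAlgClosed N]

/-- the closed field generated by `l` and a point -/
noncomputable def k1 (l : N) (P : (wc a b).toAffine.Point) : IntermediateField ℂ N :=
  clo (cl0 {l}) {px P}

/-- the closed field generated by `l` and two points -/
noncomputable def k2 (l : N) (P Q : (wc a b).toAffine.Point) : IntermediateField ℂ N :=
  clo (k1 l P) {px Q}

variable {l : N}

theorem k1_closed (P : (wc a b).toAffine.Point) : Closed (k1 l P) := closed_clo _ _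

theorem k2_closed (P Q : (wc a b).toAffine.Point) : Closed (k2 l P Q) := closed_clo _ _

theorem le_k1 (P : (wc a b).toAffine.Point) : cl0 {l} ≤ k1 l P := le_clo _ _

theorem k1_le_k2 (P Q : (wc a b).toAffine.Point) : k1 l P ≤ k2 l P Q := le_clo _ _

theorem le_k2 (P Q : (wc a b).toAffine.Point) : cl0 {l} ≤ k2 l P Q :=
  (le_k1 P).trans (k1_le_k2 P Q)

theorem k1_le {M : IntermediateField ℂ N} (hM : Closed M) (ha : a ∈ M) (hb : b ∈ M)
    (hl : cl0 {l} ≤ M) {P : (wc a b).toAffine.Point} (hP : InF M P) : k1 l P ≤ M := by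
  refine clo_le hM hl ?_
  rintro _ rfl
  exact (inF_px hM ha hb).1 hP

theorem k2_le {M : IntermediateField ℂ N} (hM : Closed M) (ha : a ∈ M) (hb : b ∈ M)
    (hl : cl0 {l} ≤ M) {P Q : (wc a b).toAffine.Point} (hP : InF M P) (hQ : InF M Q) :
    k2 l P Q ≤ M := by
  refine clo_le hM (k1_le hM ha hb hl hP) ?_
  rintro _ rfl
  exact (inF_px hM ha hb).1 hQ

/-- everything is algebraic over `l` and three points -/
def Span (l : N) (P Q R : (wc a b).toAffine.Point) : Prop :=
  ∀ M : IntermediateField ℂ N, Closed M → cl0 {l} ≤ M → InF M P → InF M Q → InF M R →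
    ∀ z, z ∈ M

variable (h4 : Algebra.trdeg ℂ N = 4) (hl : Transcendental ℂ l)
  (ha : a ∈ cl0 {l}) (hb : b ∈ cl0 {l})

include ha hb

theorem inF_k1 (P : (wc a b).toAffine.Point) : InF (k1 l P) P :=
  (inF_px (k1_closed P) (le_k1 P ha) (le_k1 P hb)).2 (mem_clo_self _ _)

theorem inF_k2l (P Q : (wc a b).toAffine.Point) : InF (k2 l P Q) P :=
  (inF_k1 ha hb P).mono (k1_le_k2 P Q)

theorem inF_k2r (P Q : (wc a b).toAffine.Point) : InF (k2 l P Q) Q :=
  (inF_px (k2_closed P Q) (le_k2 P Q ha) (le_k2 P Q hb)).2 (mem_clo_self _ _)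

theorem k1_le_k2' (P Q : (wc a b).toAffine.Point) : k1 l Q ≤ k2 l P Q :=
  k1_le (k2_closed P Q) (le_k2 P Q ha) (le_k2 P Q hb) (le_k2 P Q) (inF_k2r ha hb P Q)

include h4 hl

theorem span_of_chain {P Q R : (wc a b).toAffine.Point} (h1 : ¬ InF (cl0 {l}) P)
    (h2 : ¬ InF (k1 l P) Q) (h3 : ¬ InF (k2 l P Q) R) : Span l P Q R := by
  intro M hM hlM hP hQ hR z
  have haM := hlM ha
  have hbM := hlM hb
  rw [inF_px (closed_cl0 _) ha hb] at h1
  rw [inF_px (k1_closed P) (le_k1 P ha) (le_k1 P hb)] at h2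
  rw [inF_px (k2_closed P Q) (le_k2 P Q ha) (le_k2 P Q hb)] at h3
  rw [inF_px hM haM hbM] at hP hQ hR
  exact full h4 hl h1 h2 h3 hM (hlM (subset_cl0 _ rfl)) hP hQ hR z

omit hl in
theorem Span.three {P Q R : (wc a b).toAffine.Point} (h : Span l P Q R) :
    ¬ InF (k2 l P Q) R := by
  intro h0
  obtain ⟨t, ht⟩ := exists_notMem2 h4 l (px P) (px Q)
  exact ht (h _ (k2_closed P Q) (le_k2 P Q) (inF_k2l ha hb P Q) (inF_k2r ha hb P Q) h0 t)

omit ha hb h4 hl in
theorem Span.swap {P Q R : (wc a b).toAffine.Point} (h : Span l P Q R) : Span l Q P R :=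
  fun M hM hl hP hQ hR => h M hM hl hQ hP hR

omit ha hb h4 hl in
theorem Span.rot {P Q R : (wc a b).toAffine.Point} (h : Span l P Q R) : Span l Q R P :=
  fun M hM hl hP hQ hR => h M hM hl hR hP hQ

omit hl in
theorem Span.two {P Q R : (wc a b).toAffine.Point} (h : Span l P Q R) :
    ¬ InF (k1 l P) Q := by
  intro h0
  exact h.rot.rot.three h4 ha hb
    (h0.mono (k1_le_k2' ha hb R P))

omit hl in
theorem Span.one {P Q R : (wc a b).toAffine.Point} (h : Span l P Q R) :
    ¬ InF (cl0 {l}) P := by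
  intro h0
  exact h.rot.three h4 ha hb (h0.mono (le_k2 Q R))

omit hl in
theorem exists_gen2 [CharZero N] (hd : 4 * a ^ 3 + 27 * b ^ 2 ≠ 0)
    (P Q : (wc a b).toAffine.Point) :
    ∃ R : (wc a b).toAffine.Point, ¬ InF (k2 l P Q) R := by
  obtain ⟨t, ht⟩ := exists_notMem2 h4 l (px P) (px Q)
  obtain ⟨y, hy⟩ := IsAlgClosed.exists_pow_nat_eq (t ^ 3 + a * t + b) (Nat.succ_pos 1)
  have hns := wc_nonsing hd hy
  refine ⟨Point.some _ _ hns, ?_⟩
  rw [inF_px (k2_closed P Q) (le_k2 P Q ha) (le_k2 P Q hb)]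
  exact ht

end

section

variable {N M : Type} [Field N] [Algebra ℂ N] [IsAlgClosed N] [CharZero N] [DecidableEq N]
  [AddCommGroup M] {a b l : N}

/-- A function that is additive on the generic points. -/
structure Gad (l : N) (β : (wc a b).toAffine.Point → M) : Prop where
  deg : Algebra.trdeg ℂ N = 4
  tr : Transcendental ℂ l
  ha : a ∈ cl0 {l}
  hb : b ∈ cl0 {l}
  hd : 4 * a ^ 3 + 27 * b ^ 2 ≠ 0
  neg : ∀ P, ¬ InF (cl0 {l}) P → β P + β (-P) = 0
  star : ∀ P Q R, Span l P Q R → β P + β Q + β R + β (-(P + Q + R)) = 0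

variable {β : (wc a b).toAffine.Point → M}

theorem Gad.neg' (G : Gad l β) {P : (wc a b).toAffine.Point} (hP : ¬ InF (cl0 {l}) P) :
    β (-P) = -β P := by
  have h := G.neg P hP
  rw [eq_neg_iff_add_eq_zero, add_comm]
  exact h

theorem Gad.sum_gen (G : Gad l β) {P Q R : (wc a b).toAffine.Point} (h : Span l P Q R) :
    ¬ InF (cl0 {l}) (P + Q + R) := by
  intro h0
  apply h.three G.deg G.ha G.hb
  have h1 : R = (P + Q + R) - (P + Q) := by abel
  rw [h1]
  have hak := le_k2 P Q G.ha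
  exact (h0.mono (le_k2 P Q)).sub hak
    ((inF_k2l G.ha G.hb P Q).add hak (inF_k2r G.ha G.hb P Q))

theorem Gad.three (G : Gad l β) {P Q R : (wc a b).toAffine.Point} (h : Span l P Q R) :
    β (P + Q + R) = β P + β Q + β R := by
  have h1 := G.star P Q R h
  rw [G.neg' (G.sum_gen h)] at h1
  exact (sub_eq_zero.1 (by rw [sub_eq_add_neg]; exact h1)).symm

theorem Gad.d_indep (G : Gad l β) {X Y Y' : (wc a b).toAffine.Point}
    (hY : ¬ InF (k1 l X) Y) (hY' : ¬ InF (k2 l X Y) Y') :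
    β (X + Y) - β Y = β (X + Y') - β Y' := by
  have hY0 : ¬ InF (cl0 {l}) Y := fun h => hY (h.mono (le_k1 X))
  by_cases hX : InF (cl0 {l}) X
  · obtain ⟨Z, hZ⟩ := exists_gen2 (l := l) G.deg G.ha G.hb G.hd Y Y'
    have hYY' : ¬ InF (k1 l Y) Y' := fun h => hY' (h.mono (k1_le_k2' G.ha G.hb X Y))
    have hs := span_of_chain G.deg G.tr G.ha G.hb hY0 hYY' hZ
    obtain ⟨W, hW⟩ : ∃ W, W = Y - Z - Y' := ⟨_, rfl⟩
    have hs1 : Span l Y' Z W := by
      intro F hF hlF h1 h2 h3
      refine hs F hF hlF ?_ h1 h2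
      have h4 : Y = W + Z + Y' := by rw [hW]; abel
      rw [h4]
      exact (h3.add (hlF G.ha) h2).add (hlF G.ha) h1
    have hs2 : Span l (X + Y') Z W := by
      intro F hF hlF h1 h2 h3
      refine hs1 F hF hlF ?_ h2 h3
      have h4 : Y' = (X + Y') - X := by abel
      rw [h4]
      exact h1.sub (hlF G.ha) (hX.mono hlF)
    have e1 := G.three hs1
    have e2 := G.three hs2
    have h5 : Y' + Z + W = Y := by rw [hW]; abel
    have h6 : X + Y' + Z + W = X + Y := by rw [hW]; abel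
    rw [h5] at e1
    rw [h6] at e2
    rw [e1, e2]
    abel
  · have hs := span_of_chain G.deg G.tr G.ha G.hb hX hY hY'
    have hs1 : Span l (X + Y) (-Y) Y' := by
      intro F hF hlF h1 h2 h3
      have h4 : InF F Y := by
        have h5 := h2.neg
        rwa [neg_neg] at h5
      refine hs F hF hlF ?_ h4 h3
      have h5 : X = (X + Y) - Y := by abel
      rw [h5]
      exact h1.sub (hlF G.ha) h4
    have e1 := G.three hs1
    have h5 : X + Y + -Y + Y' = X + Y' := by abel
    rw [h5, G.neg' hY0] at e1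
    rw [e1]
    abel

theorem Gad.d_any (G : Gad l β) {X Y Y' : (wc a b).toAffine.Point}
    (hY : ¬ InF (k1 l X) Y) (hY' : ¬ InF (k1 l X) Y') :
    β (X + Y) - β Y = β (X + Y') - β Y' := by
  by_cases h : InF (k2 l X Y) Y'
  · obtain ⟨Z, hZ⟩ := exists_gen2 (l := l) G.deg G.ha G.hb G.hd X Y
    have hZ' : ¬ InF (k2 l X Y') Z := by
      intro h0
      apply hZ
      refine h0.mono (k2_le (k2_closed X Y) (le_k2 X Y G.ha) (le_k2 X Y G.hb) (le_k2 X Y)
        (inF_k2l G.ha G.hb X Y) h)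
    rw [G.d_indep hY hZ, G.d_indep hY' hZ']
  · exact G.d_indep hY h

/-- **The homomorphism.** -/
theorem Gad.exists_hom (G : Gad l β) : ∃ Φ : (wc a b).toAffine.Point →+ M,
    ∀ P, ¬ InF (cl0 {l}) P → (2 : ℕ) • β P = (2 : ℕ) • Φ P := by
  have hex : ∀ X : (wc a b).toAffine.Point, ∃ Y : (wc a b).toAffine.Point,
      ¬ InF (k1 l X) Y := by
    intro X
    obtain ⟨Y, hY⟩ := exists_gen2 (l := l) G.deg G.ha G.hb G.hd X X
    exact ⟨Y, fun h => hY (h.mono (k1_le_k2 X X))⟩
  choose y hy using hex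
  let φ : (wc a b).toAffine.Point → M := fun X => β (X + y X) - β (y X)
  have hφ : ∀ X Y, ¬ InF (k1 l X) Y → φ X = β (X + Y) - β Y := fun X Y h =>
    G.d_any (hy X) h
  have hadd : ∀ X X', φ (X + X') = φ X + φ X' := by
    intro X X'
    obtain ⟨Y, hY⟩ := exists_gen2 (l := l) G.deg G.ha G.hb G.hd X X'
    have hak := le_k2 X X' G.ha
    have hbk := le_k2 X X' G.hb
    have hkc := k2_closed (l := l) X X'
    have i1 := inF_k2l G.ha G.hb X X'
    have i2 := inF_k2r G.ha G.hb X X'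
    have h1 : ¬ InF (k1 l X) Y := fun h => hY (h.mono (k1_le_k2 X X'))
    have h2 : ¬ InF (k1 l (X + X')) Y := fun h => hY (h.mono
      (k1_le hkc hak hbk (le_k2 X X') (i1.add hak i2)))
    have h3 : ¬ InF (k1 l X') (X + Y) := by
      intro h
      apply hY
      have h4 : Y = (X + Y) - X := by abel
      rw [h4]
      exact (h.mono (k1_le_k2' G.ha G.hb X X')).sub hak i1
    rw [hφ X Y h1, hφ _ Y h2, hφ X' _ h3]
    have h5 : X' + (X + Y) = X + X' + Y := by abel
    rw [h5]
    abel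
  have h0 : φ 0 = 0 := by
    have h := hadd 0 0
    rw [add_zero] at h
    exact left_eq_add.1 h
  let Φ : (wc a b).toAffine.Point →+ M :=
    { toFun := φ, map_zero' := h0, map_add' := hadd }
  refine ⟨Φ, fun P hP => ?_⟩
  change (2 : ℕ) • β P = (2 : ℕ) • φ P
  have key : ∀ P Q, ¬ InF (cl0 {l}) P → ¬ InF (k1 l P) Q → β P - φ P = β Q - φ Q := by
    intro P Q hP hQ
    obtain ⟨R, hR⟩ := exists_gen2 (l := l) G.deg G.ha G.hb G.hd P Q
    have hs := span_of_chain G.deg G.tr G.ha G.hb hP hQ hR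
    have h1 := hs.swap.two G.deg G.ha G.hb
    rw [hφ P Q hQ, hφ Q P h1, add_comm Q P]
    abel
  have hPn : ¬ InF (cl0 {l}) (-P) := by
    intro h
    apply hP
    have h1 := h.neg
    rwa [neg_neg] at h1
  have hyn : ¬ InF (k1 l (-P)) (y P) := by
    have h1 : k1 l (-P) = k1 l P := by
      unfold k1
      rw [px_neg]
    rw [h1]
    exact hy P
  have e1 := key P (y P) hP (hy P)
  have e2 := key (-P) (y P) hPn hyn
  have e3 : φ (-P) = -φ P := Φ.map_neg P
  rw [← e2, G.neg' hP, e3] at e1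
  have e4 : (2 : ℕ) • β P - (2 : ℕ) • φ P = (β P - φ P) - (-β P - -φ P) := by
    rw [two_nsmul, two_nsmul]
    abel
  rw [← sub_eq_zero, e4, e1, sub_self]

end

end Vale.Agent.P297.H54
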