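import Vale.Agent.P297.H54.T8Fin
import Vale.Agent.P297.H637.KAbs

/-!
Natural cycles have the property `Star3`.
-/

set_option linter.unusedSectionVars false

open IntermediateField Polynomial WeierstrassCurve WeierstrassCurve.Affine

namespace Vale.Agent.P297.H54

open Vale.Agent.P297 Vale.Agent.P297.Gen Vale.Agent.P297.H839 Vale.Agent.P297.H600
open Vale.Agent.P297.H729 Vale.Agent.P297.Z3 Vale.Agent.P297.G4

section

variable {K N ι : Type} [Field K] [Algebra ℂ K] [Field N] [Algebra ℂ N] [IsAlgClosed N]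
variable {kap : ι → N} {c : ι → Fin 5 → N} {l : N} {B : N → N → N → ((K →ₐ[ℂ] N) →₀ ℤ)}
  {𝓡 : AddSubgroup ((K →ₐ[ℂ] N) →₀ ℤ)}

/-- Equivariant cycles have the property `Star3`. It is enough that the cycles are equivariant at
generic points. -/
theorem star3_of_equi (hst : stableRelations K N ≤ 𝓡)
    (hB : ∀ (g : N ≃ₐ[ℂ] N) (i j : ι) (X Y : N), X ∉ cl0 {l} → Y ^ 2 = qv (c i) X →
      g (kap i) = kap j → act g.toAlgHom (B (kap i) X Y) = B (kap j) (g X) (g Y)) :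
    Star3 kap c l B 𝓡 := by
  intro L hL hLa n e X Y hgen hperm
  apply hst
  refine stable_of_fixed L hL hLa _ fun g hg => ?_
  obtain ⟨σ, hσ⟩ := hperm g hg
  rw [map_sum]
  have h1 : ∀ i, act g.toAlgHom (B (e i) (X i) (Y i)) = B (e (σ i)) (X (σ i)) (Y (σ i)) := by
    intro i
    obtain ⟨j, hj, hX, hY⟩ := hgen i
    obtain ⟨j', hj', -, -⟩ := hgen (σ i)
    rw [hj, hj']
    rw [hB g j j' (X i) (Y i) hX hY (by rw [← hj, (hσ i).1, hj']), (hσ i).2.1, (hσ i).2.2]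
  simp only [h1]
  exact Equiv.sum_comp σ (fun i => B (e i) (X i) (Y i))

/-- Cycles that are canonical modulo relations have the property `Star3`. -/
theorem star3_of_param (h4 : Algebra.trdeg ℂ N = 4)
    (hst : stableRelations K N ≤ 𝓡) (n : ℤ)
    (Z : N → N → N → N → N → ((K →ₐ[ℂ] N) →₀ ℤ))
    (hZ : ∀ (g : N ≃ₐ[ℂ] N) (e X Y μ₁ μ₂ : N),
      act g.toAlgHom (Z e X Y μ₁ μ₂) = Z (g e) (g X) (g Y) (g μ₁) (g μ₂))
    (hZB : ∀ i X Y, X ∉ cl0 {l} → Y ^ 2 = qv (c i) X → ∀ μ₁ μ₂,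
      μ₁ ∉ cl0 {kap i, X} → μ₂ ∉ cl0 {kap i, X, μ₁} →
      n • B (kap i) X Y - Z (kap i) X Y μ₁ μ₂ ∈ 𝓡) :
    Star3 kap c l B (𝓡.comap (zsmulAddGroupHom n)) := by
  intro L hL hLa m e X Y hgen hperm
  obtain ⟨μ₁, hμ₁, h1⟩ := H637.exists_outside L (fun i => cl0 {e i, X i}) fun i =>
    H637.not_le_of h4 L hLa (e i) (X i) (X i) _ (cl0_le (closed_cl0 _) (by
      rintro _ (rfl | rfl)
      · exact subset_cl0 _ (by simp)
      · exact subset_cl0 _ (by simp)))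
  obtain ⟨μ₂, hμ₂, h2⟩ := H637.exists_outside L (fun i => cl0 {e i, X i, μ₁}) fun i =>
    H637.not_le_of h4 L hLa (e i) (X i) μ₁ _ le_rfl
  have h3 : ∑ i, Z (e i) (X i) (Y i) μ₁ μ₂ ∈ 𝓡 := by
    apply hst
    refine stable_of_fixed L hL hLa _ fun g hg => ?_
    obtain ⟨σ, hσ⟩ := hperm g hg
    rw [map_sum]
    have h4 : ∀ i, act g.toAlgHom (Z (e i) (X i) (Y i) μ₁ μ₂) =
        Z (e (σ i)) (X (σ i)) (Y (σ i)) μ₁ μ₂ := by
      intro i
      rw [hZ, (hσ i).1, (hσ i).2.1, (hσ i).2.2, hg μ₁ hμ₁, hg μ₂ hμ₂]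
    simp only [h4]
    exact Equiv.sum_comp σ (fun i => Z (e i) (X i) (Y i) μ₁ μ₂)
  have h4 : ∑ i, (n • B (e i) (X i) (Y i) - Z (e i) (X i) (Y i) μ₁ μ₂) ∈ 𝓡 := by
    refine sum_mem fun i _ => ?_
    obtain ⟨j, hj, hX, hY⟩ := hgen i
    have k1 := h1 i
    have k2 := h2 i
    rw [hj] at k1 k2 ⊢
    exact hZB j _ _ hX hY μ₁ μ₂ k1 k2
  have h5 := AddSubgroup.add_mem _ h4 h3
  rw [← Finset.sum_add_distrib] at h5
  simp only [sub_add_cancel] at h5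
  rw [← Finset.smul_sum] at h5
  exact h5

end

end Vale.Agent.P297.H54
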